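import Vale.Agent.P014T.Nr.Kat

/-! # P014T, block NR: the raw Euler system at the full level (helper48) -/

set_option autoImplicit false
set_option linter.all false

open CongruenceSubgroup Finset NumberField
open scoped MatrixGroups Matrix

noncomputable section

namespace Vale.Agent.P014T.Nr

open Vale.Agent.P022 H231.L3 P027M.M P027M.M.Dp
open Dr (Hm Tv Hm_le Hm_open Zn Co Raw)

variable {X : Mdl} {Ξ : Type} [AddCommGroup Ξ] [DistribMulAction Au Ξ] {m k : ℕ}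
  {Cu : AddSubgroup Ξ} {ρ : GQ →* P004F.M2 (Zn k)} {Z : Subgroup SL(2, ℤ) → Ξ → FF → FF → Cl ρ} {ξ : Ξ}
  {N c d D : ℕ} {S : Finset ℕ} {a : ℕ → ℤ} {Ad : ℕ → Prop} {ι : Type} {s : Finset ι} {w : ι → ℤ}
  {A : ι → M2} {z : ℕ → GQ → Fin 2 → Zn k}

/-- **the raw Euler system** of the classes `∑ w i • ZL (A i)` of level `M D` -/
theorem raw1 (R : Ru X m Cu (sg ρ) Z) (oD : Odd D) (ad0 : ∀ M, Ad M → M ≠ 0)
    (x : ∀ M, Ad M → ∀ i ∈ s, Cx X m Cu ξ N c d (M * D) (A i) ∧ ¬ (2 : ℤ) ∣ (A i).det)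
    (ad2 : ∀ M, Ad M → Ad (M * 2))
    (adl : ∀ M l, Ad M → l.Prime → l ∉ S → ¬ l ∣ M → Ad (M * l) ∧ ¬ l ∣ D * (c * d) ∧
      Hk X ξ l (a l) ∧ ∀ i ∈ s, ¬ (l : ℤ) ∣ (A i).det)
    (hz : ∀ M, Ad M → Co (Hm M) ρ (z M) ∧
      cl ρ (z M) = ∑ i ∈ s, w i • ZL Z ξ c d (M * D) (A i)) : Raw ρ S a Ad z := by
  have key : ∀ M q, Ad (M * q) → D.Coprime q → ∃ T, Tv (Hm M) (Hm (M * q)) T ∧
      Tv (Hm (M * D)) (Hm (M * D * q)) T ∧ cl ρ (∑ t ∈ T, Dr.cj ρ t (z (M * q))) =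
        ∑ i ∈ s, w i • ∑ t ∈ T, sg ρ t (ZL Z ξ c d (M * D * q) (A i)) := fun M q h' cop => by
    have e : M * q * D = M * D * q := by ring
    have q0 : 0 < M * D * q := e ▸ Nat.mul_pos (Nat.pos_of_ne_zero (ad0 _ h')) oD.pos
    obtain ⟨T, t⟩ := ex_tv (Hm_open q0.ne') (Hm_le (dvd_mul_right _ q))
    refine ⟨T, tv_cop q0 cop t, t, ?_⟩
    simp only [map_sum (cl ρ), ← sg_cl]
    rw [(hz _ h').2, e, sum_sw]
  refine ⟨fun M h => (hz M h).1, fun M h => ?_, fun M l P φ h o hl lM fb => ?_⟩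
  · obtain ⟨T, t, t', e⟩ := key M 2 (ad2 M h) (Nat.coprime_two_right.2 oD)
    refine ⟨T, t, (cl_eq ρ).1 ?_⟩
    rw [e, (hz M h).2]
    exact sum_congr rfl fun i b => by
      have y := (x M h i b).1
      rw [d2 R ξ N c d _ _ y 2 Nat.prime_two ((by simp : 2 ∣ 4).trans y.four)
        ((odd_of y.hc).mul_right (odd_of y.hd)) (x M h i b).2 T t']
  · obtain ⟨h0, h1, h2, h3⟩ := adl M l h o.1 hl lM
    have nl : ¬ l ∣ M * D := fun e => (o.1.dvd_mul.1 e).elim lM fun e => h1 (e.mul_right _)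
    obtain ⟨T, t, t', e⟩ := key M l h0 (o.1.coprime_iff_not_dvd.2 fun e => nl (e.mul_left _)).symm
    refine ⟨T, t, (cl_eq ρ).1 ?_⟩
    rw [map_nsmul, e, map_add, map_sub, map_nsmul, map_zsmul, ← sg_cl, ← sg_cl, (hz M h).2]
    exact sum_eu fun i b => dl R ξ N c d _ _ (x M h i b).1 l (a l) φ o.1 nl
      (o.1.coprime_iff_not_dvd.2 fun e => h1 (e.mul_left _)) (h3 i b) h2 (fb_cyc o fb nl) T t'

end Vale.Agent.P014T.Nr
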