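import Vale.Agent.P014T.Nr.Rul
import Vale.Agent.P014T.Pm.Sm

/-! # P014T, block NR: change of the smoothing numbers (helper48) -/

set_option autoImplicit false
set_option linter.all false

open CongruenceSubgroup Finset
open scoped MatrixGroups Matrix

noncomputable section

namespace Vale.Agent.P014T.Nr

open Vale.Agent.P022 H231.L3 P027M.M P027M.M.Dp
open Dr (Hm Ha Tv Ha_le Hm_le)
open Sg

variable {X : Mdl} {Ξ C : Type} [AddCommGroup Ξ] [DistribMulAction Au Ξ] [AddCommGroup C] {m : ℕ}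
  {Cu : AddSubgroup Ξ} {σ : GQ →* AddMonoid.End C} {Z : Subgroup SL(2, ℤ) → Ξ → FF → FF → C}
  {Γ : Subgroup SL(2, ℤ)} {ξ : Ξ} {u v : FF} {N c d e n : ℕ} {w : Fin 2 → ℤ} {A : M2} {g h : GQ}

/-- the rows of `A` can be scaled from the right -/
def Sw (N : ℕ) (A : M2) : Prop := ∀ k l : ℤ, (N : ℤ) ∣ k - 1 → (N : ℤ) ∣ l - 1 →
  ∃ G : M2, (N : ℤ) ∣ G 1 0 ∧ G.det = k * l ∧ !![k, 0; 0, l] * A = A * G

theorem sw_up (γ : SL(2, ℤ)) {D : ℕ} (hD : D ∣ N) (b : ℤ) : Sw N (γ * !![(D : ℤ), b; 0, 1]) := by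
  rintro k l ⟨s, hs⟩ ⟨t, ht⟩
  obtain ⟨q, rfl⟩ := hD
  obtain rfl := sub_eq_iff_eq_add.1 hs
  obtain rfl := sub_eq_iff_eq_add.1 ht
  have e := γ.det_coe
  rw [Matrix.det_fin_two] at e
  generalize (γ : M2) = Y at e
  push_cast
  refine ⟨!![D * q * s + 1 + D * q * (s - t) * Y 1 0 * (Y 0 1 + b * Y 0 0),
    q * (s - t) * (Y 0 1 + b * Y 0 0) * (b * Y 1 0 + Y 1 1);
    -D * (D * q) * (s - t) * Y 0 0 * Y 1 0,
    D * q * s + 1 - D * q * (s - t) * Y 0 0 * (b * Y 1 0 + Y 1 1)], ?_, ?_, ?_⟩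
  · exact ⟨-D * (s - t) * Y 0 0 * Y 1 0, by simp; ring⟩
  · rw [Matrix.det_fin_two_of]
    linear_combination (-(D * q * (s - t)) * (D * q * s + 1)) * e
  · ext i j
    fin_cases i <;> fin_cases j <;> simp [mm]
    · ring
    · ring
    · linear_combination (D * (D * q) * (s - t) * Y 1 0) * e
    · linear_combination (D * q * (s - t) * (b * Y 1 0 + Y 1 1)) * e

theorem sw_sl (γ : SL(2, ℤ)) : Sw N γ := by
  simpa [← Matrix.one_fin_two] using sw_up γ (one_dvd N) 0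

theorem nz_cop (n0 : 0 < n) (z : Nz c (vL n w)) (a : IsCoprime (c : ℤ) n) {k : ℤ}
    (b : IsCoprime k (n : ℤ)) (e : ℕ) (y : IsCoprime (e : ℤ) n) : Nz e (vL n fun i => k * w i) := by
  rw [nz_iff n0] at z ⊢
  exact fun f => z fun i => (b.symm.dvd_of_dvd_mul_left (y.symm.dvd_of_dvd_mul_left (f i))).mul_left _

theorem smul_vL (c : ℕ) (w : Fin 2 → ℤ) : (c : ℚ) • vL n w = vL n fun i => c * w i := funext fun i => by
  simp [vL, mul_div_assoc]

variable (R : Ru X m Cu σ Z)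
include R

theorem Ru.pow (o : Ok X Cu Γ ξ u v) (k : ℕ) : Z Γ ξ (u ^ k) v = k • Z Γ ξ u v := by
  simpa using R.prod_l o.lev o.xi o.u2 (s := range k) fun _ _ => o.u1

theorem Ru.smo (hc : c ^ 2 % 24 = 1) (he : e ^ 2 % 24 = 1) (n0 : 0 < n) (l : Lev (Gamma n))
    (x : Xi X Cu (Gamma n) ξ) (k : Un X (Gamma n) u) (z : Nz c (vL n w)) (a : IsCoprime (c : ℤ) n)
    (b : IsCoprime (e : ℤ) n) :
    e ^ 2 • Z (Gamma n) ξ (gs c n w) u + Z (Gamma n) ξ (gs e n fun i => c * w i) u =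
      c ^ 2 • Z (Gamma n) ξ (gs e n w) u + Z (Gamma n) ξ (gs c n fun i => e * w i) u := by
  have f := fun e y => by simpa using nz_cop n0 z a isCoprime_one_left e y
  have s := Pm.sF_smo hc he (f (c * e) (by simpa using a.mul_left b))
  have p : ∀ {u : FF} (j : ℕ), Un X (Gamma n) u → Un X (Gamma n) (u ^ j) := fun j y => by
    simpa using un_prod (s := range j) fun _ _ => y
  have u1 := gs_un X hc n0 z (Ga_St w)
  have u2 := gs_un X he n0 (f e b) (Ga_St w)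
  rw [smul_vL, smul_vL] at s
  rw [← R.pow ⟨l, x, u1, k⟩, ← R.pow ⟨l, x, u2, k⟩,
    ← R.ml _ _ _ _ _ ⟨l, x, p _ u1, k⟩ (gs_un X he n0 (nz_cop n0 z a a e b) (Ga_St _)),
    ← R.ml _ _ _ _ _ ⟨l, x, p _ u2, k⟩ (gs_un X hc n0 (nz_cop n0 z a b c a) (Ga_St _))]
  exact congrArg (Z _ ξ · u) s

theorem Ru.sw (x : Cx X m Cu ξ N c d n A) (s : Sw N A) {k l : ℤ} (a : (N : ℤ) ∣ k - 1)
    (b : (N : ℤ) ∣ l - 1) (y : Cyc n g (k * l)) :
    Z (Gamma n) ξ (gs c n fun i => k * A 0 i) (gs d n fun i => l * A 1 i) =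
      (k * l) • σ g (ZL Z ξ c d n A) := by
  obtain ⟨G, g1, g2, g3⟩ := s k l a b
  rw [← det R ξ N c d n A x G (!![k, 0; 0, l] * A) g _ y g1 (by simp [g2]) (by simp [g3]), ZL_eq]
  congr 2 <;> ext i <;> simp [mm]

/-- **the first smoothing number** -/
theorem smo1 (x : Cx X m Cu ξ N c d n A) (s : Sw N A) (he : e ^ 2 % 24 = 1) (cN : c ≡ 1 [MOD N])
    (eN : e ≡ 1 [MOD N]) (yc : Cyc n g c) (ye : Cyc n h e) : Cx X m Cu ξ N e d n A ∧
      e ^ 2 • ZL Z ξ c d n A - e • σ h (ZL Z ξ c d n A) =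
        c ^ 2 • ZL Z ξ e d n A - c • σ g (ZL Z ξ e d n A) := by
  have a := cyc_cop x.pos yc
  have b := cyc_cop x.pos ye
  have x' : Cx X m Cu ξ N e d n A := ⟨he, x.hd, x.pos, x.four, x.md, x.nd, x.cu, x.inv, x.fix,
    by simpa using nz_cop x.pos x.n0 a isCoprime_one_left e b, x.n1⟩
  have k := R.smo x.hc he x.pos x.ok.lev x.xi x.ok.u2 x.n0 a b
  have k1 := R.sw x' s (l := 1) cN.symm.dvd (by simp) (by simpa using yc)
  have k2 := R.sw x s (l := 1) eN.symm.dvd (by simp) (by simpa using ye)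
  simp only [one_mul, mul_one, natCast_zsmul] at k1 k2
  refine ⟨x', ?_⟩
  rw [← k1, ← k2, sub_eq_sub_iff_add_eq_add]
  exact k

/-- **the second smoothing number** -/
theorem smo2 (x : Cx X m Cu ξ N c d n A) (s : Sw N A) (he : e ^ 2 % 24 = 1) (dN : d ≡ 1 [MOD N])
    (eN : e ≡ 1 [MOD N]) (yd : Cyc n g d) (ye : Cyc n h e) : Cx X m Cu ξ N c e n A ∧
      e ^ 2 • ZL Z ξ c d n A - e • σ h (ZL Z ξ c d n A) =
        d ^ 2 • ZL Z ξ c e n A - d • σ g (ZL Z ξ c e n A) := by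
  have a := cyc_cop x.pos yd
  have b := cyc_cop x.pos ye
  have x' : Cx X m Cu ξ N c e n A := ⟨x.hc, he, x.pos, x.four, x.md, x.nd, x.cu, x.inv, x.fix, x.n0,
    by simpa using nz_cop x.pos x.n1 a isCoprime_one_left e b⟩
  have k := R.smo x.hd he x.pos x.ok.lev x.xi x.ok.u1 x.n1 a b
  have k1 := R.sw x' s (k := 1) (by simp) dN.symm.dvd (by simpa using yd)
  have k2 := R.sw x s (k := 1) (by simp) eN.symm.dvd (by simpa using ye)
  simp only [one_mul, mul_one, natCast_zsmul] at k1 k2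
  have o := fun (e : ℕ) (he : e ^ 2 % 24 = 1) y k (b : IsCoprime k (n : ℤ)) => R.skew _ _ _ _
    ⟨x.ok.lev, x.xi, x.ok.u1, gs_un X he x.pos (nz_cop x.pos x.n1 a b e y) (Ga_St _)⟩
  refine ⟨x', ?_⟩
  rw [R.skew _ _ _ _ x.ok, R.skew _ _ _ _ x'.ok, o e he b d a, o d x.hd a e b, k1, k2] at k
  rw [ZL_eq, ZL_eq] at k ⊢
  linear_combination (norm := module) -k

end Vale.Agent.P014T.Nr
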