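import Vale.Agent.P014T.Nr.Cor
import Vale.Agent.P014T.Ts.Act

/-! # P014T, block NR: descent of cocycles to the Galois group of the constants -/

set_option linter.all false

open Matrix

noncomputable section

namespace Vale.Agent.P014T.Nr

open Vale.Agent.P022 (Qb GQ)
open Vale.Agent.P004F (M2)
open P027M.K (SL res0 res0_spec res0_eq)
open Dr Ur Ts

variable {Ω : Type} [Field Ω] [Algebra Qb Ω]

/-- the action on the constants -/
def rq : SL Qb Ω →* GQ where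
  toFun θ := (res0 θ).toRatAlgEquiv
  map_one' := AlgEquiv.ext fun x => by rw [map_one]; rfl
  map_mul' θ θ' := AlgEquiv.ext fun x => by rw [map_mul]; rfl

theorem rq_ap (θ : SL Qb Ω) (x : Qb) : rq θ x = res0 θ x := rfl

theorem rq_spec (θ : SL Qb Ω) (x : Qb) : θ.1 (algebraMap Qb Ω x) = algebraMap Qb Ω (rq θ x) :=
  res0_spec θ x

theorem rq_eq {θ : SL Qb Ω} {g : GQ} (h : ∀ x, θ.1 (algebraMap Qb Ω x) = algebraMap Qb Ω (g x)) :
    rq θ = g := AlgEquiv.ext fun x => (algebraMap Qb Ω).injective ((rq_spec θ x).symm.trans (h x))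

variable {R : Type} [CommRing R] {a b : ℚ} {m : ℕ} {ρ : GQ →* M2 R} {e : (Fin 2 → R) →+ Ep Qb a b}
  {H H' K : Subgroup (SL Qb Ω)} {z z' : SL Qb Ω → Ep Qb a b} {y y' : GQ → Fin 2 → R} {x x' : Cl ρ}

/-- coordinates on the torsion points -/
structure Crd (m : ℕ) (ρ : GQ →* M2 R) (e : (Fin 2 → R) →+ Ep Qb a b) : Prop where
  inj : Function.Injective e
  tor : ∀ v, m • e v = 0
  ex : ∀ P, m • P = 0 → ∃ v, e v = P
  ga : ∀ g v, e (ρ g *ᵥ v) = ea g.toRingEquiv (e v)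

theorem Crd.sm (C : Crd m ρ e) (θ : SL Qb Ω) (v : Fin 2 → R) : e (ρ (rq θ) *ᵥ v) = θ • e v := C.ga _ v

theorem Crd.tz (C : Crd m ρ e) (x : Cl ρ) : m • x = 0 := by
  obtain ⟨y, rfl⟩ := cl_sur ρ x
  rw [← map_nsmul, show m • y = 0 from funext fun g => C.inj (by
    rw [Pi.smul_apply, map_nsmul, C.tor, Pi.zero_apply, map_zero]), map_zero]

/-- `y` are the coordinates of `z` -/
def Ds (e : (Fin 2 → R) →+ Ep Qb a b) (H : Subgroup (SL Qb Ω)) (z : SL Qb Ω → Ep Qb a b)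
    (y : GQ → Fin 2 → R) : Prop := ∀ θ ∈ H, e (y (rq θ)) = z θ

/-- `H` maps onto `Ha` -/
def On (H : Subgroup (SL Qb Ω)) : Prop := ∀ h ∈ Ha, ∃ θ ∈ H, rq θ = h

theorem ex_ds (C : Crd m ρ e) (t : ∀ θ ∈ H, m • z θ = 0)
    (g : ∀ θ ∈ H, ∀ n ∈ H, rq n = 1 → z (θ * n) = z θ) : ∃ y, Ds e H z y := by
  choose! s s1 s2 using fun g (h : g ∈ H.map rq) => h
  choose! v hv using C.ex
  refine ⟨fun g => v (z (s g)), fun θ h => ?_⟩
  have m := Subgroup.mem_map_of_mem rq h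
  rw [hv _ (t _ (s1 _ m)), ← g _ (s1 _ m) _ (mul_mem (inv_mem (s1 _ m)) h) (by
    rw [map_mul, map_inv, s2 _ m, inv_mul_cancel]), mul_inv_cancel_left]

theorem Ds.coc (d : Ds e H z y) (C : Crd m ρ e)
    (c : ∀ θ ∈ H, ∀ θ' ∈ H, z (θ * θ') = z θ + θ • z θ') : Z1 (H.map rq) (rr ρ) y := by
  rintro _ ⟨θ, h, rfl⟩ _ ⟨θ', h', rfl⟩
  exact C.inj (by rw [← map_mul, d _ (mul_mem h h'), c θ h θ' h', map_add, rr_ap, C.sm, d θ h, d θ' h'])

theorem Ds.mono (d : Ds e H z y) (le : K ≤ H) : Ds e K z y := fun θ h => d θ (le h)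

theorem Ds.congr (d : Ds e H z y) (k : ∀ θ ∈ H, z' θ = z θ) : Ds e H z' y :=
  fun θ h => (d θ h).trans (k θ h).symm

theorem Ds.add (d : Ds e H z y) (d' : Ds e H z' y') : Ds e H (z + z') (y + y') := fun θ h => by
  rw [Pi.add_apply, map_add, d θ h, d' θ h, Pi.add_apply]

theorem Ds.zsmul (d : Ds e H z y) (k : ℤ) : Ds e H (k • z) (k • y) := fun θ h => by
  rw [Pi.smul_apply, map_zsmul, d θ h, Pi.smul_apply]

theorem Ds.neg (d : Ds e H z y) : Ds e H (-z) (-y) := by simpa using d.zsmul (-1)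

theorem Ds.conj (d : Ds e H z y) (C : Crd m ρ e) {θ : SL Qb Ω} (k : ∀ s ∈ K, θ⁻¹ * s * θ ∈ H) :
    Ds e K (fun s => θ • z (θ⁻¹ * s * θ)) (cj ρ (rq θ) y) := fun s h => by
  rw [cj, C.sm, ← map_inv, ← map_mul, ← map_mul, d _ (k s h)]

theorem Ds.cl (d : Ds e H z y) (d' : Ds e H z' y') (C : Crd m ρ e) (o : On H)
    (k : ∃ q, m • q = 0 ∧ ∀ θ ∈ H, z θ = z' θ + (θ • q - q)) : cl ρ y = cl ρ y' := by
  obtain ⟨q, k0, k⟩ := k
  obtain ⟨w, rfl⟩ := C.ex q k0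
  refine (cl_eq ρ).2 ⟨w, fun g hg => C.inj ?_⟩
  obtain ⟨θ, h, rfl⟩ := o g hg
  rw [map_sub, map_sub, d θ h, d' θ h, k θ h, C.sm, add_sub_cancel_left]

theorem Ds.cl' (d : Ds e H z y) (d' : Ds e H z y') (C : Crd m ρ e) (o : On H) : Nr.cl ρ y = Nr.cl ρ y' :=
  d.cl d' C o ⟨0, smul_zero _, fun _ _ => by simp⟩

end Vale.Agent.P014T.Nr
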