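import Vale.Agent.P014T.Nr.In0
import Vale.Agent.P014T.Nr.Dsc
import Vale.Agent.P014T.Uy.Zf

/-! # P014T, block NR: the classes of symbols of modular units obey the rules -/

set_option autoImplicit false
set_option linter.all false

open CongruenceSubgroup Matrix
open scoped MatrixGroups Classical

noncomputable section

namespace Vale.Agent.P014T.Nr

open Vale.Agent.P022 H231.L3 P027M.M
open Ts (Pm Ep)
open Dr
open Uy (Zf Ud gE gE_ea ud_un bd_xi)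
open ModularGroup (S)
open Sg (sF)

variable (X : Mdl) {a b : ℚ} (hD : 4 * a ^ 3 + 27 * b ^ 2 ≠ 0) (m : ℕ) (ζ : Qbˣ) {R : Type}
  [CommRing R] (ρ : GQ →* P004F.M2 R) (e : (Fin 2 → R) →+ Ep Qb a b)

/-- **the class of the symbol of `u` and `v`, pushed along `ξ`** -/
def ZZ (Γ : Subgroup SL(2, ℤ)) (ξ : Pm FF a b) (u v : FF) : Cl ρ :=
  if h : ∃ y, Zf X hD Γ Ha ξ m ζ u v (e ∘ y) then cl ρ h.choose else 0

variable {X hD m ζ ρ e} {Γ Γ' : Subgroup SL(2, ℤ)} {D : Subgroup GQ} {ξ : Pm FF a b} {u v : FF}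
  {y : GQ → Fin 2 → R} {z : GQ → Ep Qb a b}

theorem Xi.tr {Ξ ι : Type} [AddCommGroup Ξ] [DistribMulAction Au Ξ] [Fintype ι] {Cu : AddSubgroup Ξ}
    {ξ : Ξ} {r : ι → SL(2, ℤ)} (x : Xi X Cu Γ' ξ) (t : Dp.Reps Γ Γ' r)
    (c : ∀ γ, pS X γ • ξ ∈ Cu) : Xi X Cu Γ (∑ i, pS X (r i) • ξ) := by
  refine ⟨sum_mem fun _ _ => c _, fun γ n => ?_, fun g n => ?_⟩ <;> rw [Finset.smul_sum]
  · obtain ⟨π, p, q⟩ := Reps.perm t n
    exact Fintype.sum_bijective π p _ _ fun i => by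
      rw [← mul_smul, ← pS_mul, ← inv_mul_cancel_right (r i * γ) (r (π i)), pS_mul, mul_smul,
        x.inv _ (q i)]
  · exact Finset.sum_congr rfl fun i _ => by rw [← mul_smul, comm_S X _ n, mul_smul, x.fix g n]

variable (C : Crd m ρ e)
include C

theorem Crd.ge (g : GQ) (w : Fin 2 → R) : e (ρ g *ᵥ w) = gE g (e w) := (C.ga g w).trans (gE_ea _).symm

theorem ZZ_eq (Z : Zf X hD Γ Ha ξ m ζ u v z) (k : ∀ g ∈ Ha, e (y g) = z g) :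
    ZZ X hD m ζ ρ e Γ ξ u v = cl ρ y := by
  have h : ∃ y, Zf X hD Γ Ha ξ m ζ u v (e ∘ y) := ⟨y, Z.congr k⟩
  rw [ZZ, dif_pos h, cl_eq]
  obtain ⟨q, t, r⟩ := h.choose_spec.uniq Z
  obtain ⟨w, rfl⟩ := C.ex q t
  refine ⟨w, fun g n => C.inj ?_⟩
  rw [map_sub, map_sub, C.ge, k g n]
  exact sub_eq_iff_eq_add'.2 (r g n)

theorem ex_y (Z : Zf X hD Γ D ξ m ζ u v z) : ∃ y, Zf X hD Γ D ξ m ζ u v (e ∘ y) := by
  choose! w hw using C.ex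
  exact ⟨fun g => w (z g), Z.congr fun g n => hw _ (Z.tor n)⟩

theorem co (Z : Zf X hD Γ D ξ m ζ u v (e ∘ y)) : Co D ρ y :=
  ⟨fun g n h n' => C.inj (by rw [map_add, C.ge]; exact Z.coc n n'), Z.lc.imp fun _ k =>
    ⟨k.1, fun g p q => C.inj ((k.2 g p q).trans (map_zero e).symm)⟩⟩

/-- the class extends to the group which fixes the data -/
theorem ext (B : Uy.Bd X hD Γ D ξ m ζ) (U : Ud X Γ D u) (V : Ud X Γ D v) (le : Ha ≤ D) :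
    ∃ y, Co D ρ y ∧ cl ρ y = ZZ X hD m ζ ρ e Γ ξ u v ∧ Zf X hD Γ D ξ m ζ u v (e ∘ y) :=
  let ⟨_, Z⟩ := B.ex U V
  let ⟨y, Z⟩ := ex_y C Z
  ⟨y, co C Z, (ZZ_eq C (Z.mono le) fun _ _ => rfl).symm, Z⟩

variable (m0 : m ≠ 0) (pr : IsPrimitiveRoot ζ m) (dv : ∀ P : Ep Qb a b, ∃ q, m • q = P)
include m0 pr dv

theorem Ok.ex (o : Ok X (Uy.Cu hD) Γ ξ u v) :
    ∃ y, ZZ X hD m ζ ρ e Γ ξ u v = cl ρ y ∧ Zf X hD Γ Ha ξ m ζ u v (e ∘ y) :=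
  let ⟨y, _, k, Z⟩ := ext C (bd_xi o.lev o.xi m0 pr dv) (ud_un.1 o.u1) (ud_un.1 o.u2) le_rfl
  ⟨y, k.symm, Z⟩

/-- **the rules hold** -/
theorem ru : Ru X m (Uy.Cu hD) (sg ρ) (ZZ X hD m ζ ρ e) where
  cu _ _ _ h := Uy.cu_pA X h _
  tor _ _ _ _ _ := C.tz _
  ml Γ ξ u u' v o U := by
    obtain ⟨y, k, Z⟩ := o.ex C m0 pr dv
    obtain ⟨y', k', Z'⟩ := Ok.ex C m0 pr dv ⟨o.lev, o.xi, U, o.u2⟩
    rw [k, k', ← map_add]
    exact ZZ_eq C (Z.ml Z') fun _ _ => map_add e _ _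
  skew Γ ξ u v o := by
    obtain ⟨y, k, Z⟩ := o.ex C m0 pr dv
    rw [k, ← map_neg]
    exact ZZ_eq C Z.skew fun _ _ => map_neg e _
  add Γ ξ ξ' u v o x := by
    obtain ⟨y, k, Z⟩ := o.ex C m0 pr dv
    obtain ⟨y', k', Z'⟩ := Ok.ex C m0 pr dv ⟨o.lev, x, o.u1, o.u2⟩
    rw [k, k', ← map_add]
    exact ZZ_eq C (Z.add Z') fun _ _ => map_add e _ _
  res Γ Γ' ξ u v ι _ r le t l U V o := by
    obtain ⟨y, k, Z⟩ := Ok.ex C m0 pr dv ⟨l, o.xi.tr t fun _ => Uy.cu_pA X o.xi.cu _, U, V⟩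
    rw [k]
    exact ZZ_eq C (Z.res (bd_xi o.lev o.xi m0 pr dv) le t) fun _ _ => rfl
  nrm Γ Γ' ξ u v ι _ r le t l x U o := by
    obtain ⟨y, k, Z⟩ := o.ex C m0 pr dv
    rw [k]
    exact (ZZ_eq C (Z.nrm (bd_xi l x m0 pr dv) (ud_un.1 U) le t) fun _ _ => rfl).symm
  conj Γ Γ' ξ u v A hA c c' _ o l := by
    obtain ⟨y, k, Z⟩ := o.ex C m0 pr dv
    rw [k]
    exact ZZ_eq C (Z.conj hA c c' (fun g n f _ => Uy.gal_pb_ha X hA n f) l) fun _ _ => rfl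
  gal Γ Γ' ξ u v g k c hL o o' := by
    obtain ⟨y, h, Z⟩ := o.ex C m0 pr dv
    rw [h, sg_cl, ← map_zsmul]
    exact ZZ_eq C (Z.gal o'.lev c hL fun h n => Ha_normal.conj_mem' h n g) fun h _ => by
      rw [Pi.smul_apply, map_zsmul, Dr.cj, C.ge]
      rfl

variable {N c d n k : ℕ} {A : M2}

/-- **the element of level `n` is defined over the `n`-th cyclotomic field** -/
theorem ext0 (h : Cx X m (Uy.Cu hD) ξ N c d n A) :
    ∃ y, Co (Hm n) ρ y ∧ cl ρ y = ZL (ZZ X hD m ζ ρ e) ξ c d n A ∧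
      Zf X hD (Gamma n) (Hm n) ξ m ζ (sF c (vL n (A 0))) (sF d (vL n (A 1))) (e ∘ y) := by
  have o := h.ok
  have f : ∀ {c w}, c ^ 2 % 24 = 1 → Sg.Nz c (vL n w) → ∀ g ∈ Hm n, X.gal g (gs c n w) = gs c n w :=
    fun hc z g p => by
      rw [gs_gal X hc h.pos z ((cyc_one h.pos).2 p)]
      exact gs_cv hc h.pos (Fin.forall_fin_two.2 (by simp))
  exact ext C ⟨o.lev, Uy.hm_Sb X h.pos le_rfl, h.cu, (Uy.df_iff X).2 o.xi.inv, fun g _ => h.fix g,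
    m0, pr, Hm_le h.md, dv⟩ { ud_un.1 o.u1 with fx := f h.hc h.n0 }
    { ud_un.1 o.u2 with fx := f h.hd h.n1 } (Ha_le h.pos.ne')

/-- **a smaller field of definition** -/
theorem ext1 (h : Cx X m (Uy.Cu hD) ξ N c d (n * k) A) (md : m ∣ n) (kd : ∀ i, (k : ℤ) ∣ A i 0) :
    ∃ y, Co (Hm n) ρ y ∧ cl ρ y = ZL (ZZ X hD m ζ ρ e) ξ c d (n * k) A := by
  have o := h.ok
  have r := ru (X := X) (hD := hD) C m0 pr dv
  have j : ∀ δ, S * δ * S⁻¹ ∈ Gamma (n * k) ↔ δ ∈ Gamma (n * k) := fun δ => by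
    rw [(Gamma_normal _).mem_comm_iff, inv_mul_cancel_left]
  have l := Dp.cj_SL fun δ => (j δ).2
  have x := o.xi.pb r (SL_pos S) l fun _ => comm_S X S
  obtain ⟨y, p, q, -⟩ := ext C (D := Hm n) ⟨o.lev, by
    rintro _ ⟨g, -, rfl⟩
    exact Uy.gal_Sb X h.pos g, x.cu, (Uy.df_iff X).2 x.inv, fun g _ => gal_S X
      (Nat.pos_of_dvd_of_pos h.nd h.pos) h.inv (h.fix g), m0, pr, Hm_le md, dv⟩
    { ud_un.1 (o.u1.pb (SL_pos S) l fun _ => comm_S X S) with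
      fx := fun _ => gs_S X h.hc h.pos h.n0 (kd 0) }
    { ud_un.1 (o.u2.pb (SL_pos S) l fun _ => comm_S X S) with
      fx := fun _ => gs_S X h.hd h.pos h.n1 (kd 1) } (Ha_le (left_ne_zero_of_mul h.pos.ne'))
  exact ⟨y, p, q.trans (r.cjS S j o o.lev)⟩

end Vale.Agent.P014T.Nr
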