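import Vale.Agent.P014T.Dr.Cy
import Vale.Agent.P014T.Ur.Cor

/-! # P014T, block NR: classes on `Ha`, from the norm relations to the raw Euler system -/

set_option linter.all false

open NumberField Matrix Finset

noncomputable section

namespace Vale.Agent.P014T.Nr

open Vale.Agent.P022 (Qb GQ)
open Vale.Agent.P022E.GW (Ov Fb)
open Vale.Agent.P004F (M2)
open Vale.Agent.P004F.Es (Fr ex_fr)
open Dr Ur

section

variable {R : Type} [CommRing R] (ρ : GQ →* M2 R) {y y' z : GQ → Fin 2 → R} {Γ H H' K : Subgroup GQ}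
  {T T' U U' : Finset GQ} {g h : GQ}

/-- the linear action -/
def rr (g : GQ) : (Fin 2 → R) →ₗ[R] (Fin 2 → R) := mulVecLin (ρ g)

theorem rr_ap (g : GQ) (v : Fin 2 → R) : rr ρ g v = ρ g *ᵥ v := rfl

theorem rp (Γ : Subgroup GQ) : Rp Γ (rr ρ) :=
  ⟨fun v => by rw [rr_ap, map_one, one_mulVec], fun g _ h _ v => by
    rw [rr_ap, map_mul, ← mulVec_mulVec]; rfl⟩

theorem cr_z1 (c : Cr Γ H (fun _ => 1) (rr ρ) z y) : Z1 Γ (rr ρ) y := fun g a h b =>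
  (c.coc (rp ρ Γ) g a h b).trans (congrArg _ (one_smul R (rr ρ g (y h))))

/-- the functions which are coboundaries on `Ha` -/
def Bd : AddSubgroup (GQ → Fin 2 → R) where
  carrier := {y | ∃ w, ∀ g ∈ Ha, y g = ρ g *ᵥ w - w}
  add_mem' := fun ⟨w, a⟩ ⟨v, b⟩ => ⟨w + v, fun g hg => by
    rw [Pi.add_apply, a g hg, b g hg, mulVec_add]; abel⟩
  zero_mem' := ⟨0, fun _ _ => by simp⟩
  neg_mem' := fun ⟨w, a⟩ => ⟨-w, fun g hg => by rw [Pi.neg_apply, a g hg, mulVec_neg]; abel⟩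

/-- classes on `Ha` -/
abbrev Cl : Type := (GQ → Fin 2 → R) ⧸ Bd ρ

/-- the class -/
def cl : (GQ → Fin 2 → R) →+ Cl ρ := QuotientAddGroup.mk' _

theorem cl_eq : cl ρ y = cl ρ y' ↔ Ch Ha ρ y y' := QuotientAddGroup.eq_iff_sub_mem

theorem cl_sur (x : Cl ρ) : ∃ y, cl ρ y = x := QuotientAddGroup.mk'_surjective _ x

/-- conjugation is additive -/
def ch (s : GQ) : (GQ → Fin 2 → R) →+ GQ → Fin 2 → R :=
  AddMonoidHom.mk' (cj ρ s) fun _ _ => funext fun _ => mulVec_add _ _ _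

theorem cj_mul (s t : GQ) (y : GQ → Fin 2 → R) : cj ρ (s * t) y = cj ρ s (cj ρ t y) :=
  funext fun g => by simp only [cj, map_mul, mulVec_mulVec, _root_.mul_inv_rev, mul_assoc]

/-- the action on the classes -/
def sg : GQ →* AddMonoid.End (Cl ρ) where
  toFun s := QuotientAddGroup.map _ _ (ch ρ s) fun y ⟨w, a⟩ => ⟨ρ s *ᵥ w, fun g hg => by
    change ρ s *ᵥ y _ = _
    rw [a _ (Ha_normal.conj_mem' g hg s), mulVec_sub, mulVec_mulVec, mulVec_mulVec, ← map_mul,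
      ← map_mul, ← mul_assoc, mul_inv_cancel_left]⟩
  map_one' := AddMonoidHom.ext fun x => by
    obtain ⟨y, rfl⟩ := cl_sur ρ x
    exact congrArg (cl ρ) (funext fun g => by simp [ch, cj])
  map_mul' s t := AddMonoidHom.ext fun x => by
    obtain ⟨y, rfl⟩ := cl_sur ρ x
    exact congrArg (cl ρ) (cj_mul ρ s t y)

theorem sg_cl (s : GQ) (y : GQ → Fin 2 → R) : sg ρ s (cl ρ y) = cl ρ (cj ρ s y) := rfl

theorem sg_mul (s t : GQ) (x : Cl ρ) : sg ρ (s * t) x = sg ρ s (sg ρ t x) := by rw [map_mul]; rfl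

variable {ρ}

theorem sg_fix (c : Z1 H (rr ρ) y) (le : Ha ≤ H) (hh : h ∈ H) : sg ρ h (cl ρ y) = cl ρ y :=
  (cl_eq ρ (y := cj ρ h y)).2 ⟨y h, fun g hg => by
    have := c h hh _ (mul_mem (mul_mem (inv_mem hh) (le hg)) hh)
    rw [← mul_assoc, mul_inv_cancel_left, c g (le hg) h hh, rr_ap, rr_ap] at this
    rw [cj, sub_eq_sub_iff_add_eq_add, add_comm, ← this, add_comm]⟩

theorem comm_Ha (g h : GQ) : g * h * g⁻¹ * h⁻¹ ∈ Ha := Subgroup.mem_iInf.2 fun M => by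
  obtain ⟨-, χ, -, -, a, -⟩ := ex_cy (M + 1)
  rw [a]
  simp [mul_comm (χ g)]

theorem sg_comm {x : Cl ρ} (f : ∀ h ∈ Ha, sg ρ h x = x) (s t : GQ) :
    sg ρ s (sg ρ t x) = sg ρ t (sg ρ s x) := by
  rw [← sg_mul, show s * t = t * s * (s⁻¹ * t⁻¹ * s⁻¹⁻¹ * t⁻¹⁻¹) by group, sg_mul, f _ (comm_Ha _ _),
    sg_mul]

theorem tv_fr (A : Type) [CommRing A] (t : Tv H H' T) (le : H' ≤ H) : Fr H H' T fun _ => (1 : A) :=
  ⟨le, t.1, fun g hg => (existsUnique_congr fun s => and_congr_right' (by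
    rw [← inv_mem_iff, _root_.mul_inv_rev, inv_inv])).1 (t.2 g hg), by simp, by simp⟩

theorem fr_tv {A : Type} [CommRing A] {ψ : GQ → A} (f : Fr H H' T ψ) : Tv H H' T :=
  ⟨f.mem, fun g hg => (existsUnique_congr fun s => and_congr_right' (by
    rw [← inv_mem_iff, _root_.mul_inv_rev, inv_inv])).1 (f.rep g hg)⟩

theorem ex_tv (o : IsOpen (H' : Set GQ)) (le : H' ≤ H) : ∃ T, Tv H H' T :=
  haveI := P022K.G2.cpt
  haveI := H'.quotient_finite_of_isOpen o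
  (ex_fr (ψ := fun _ => (1 : ℤ)) le (by simp) (by simp)).imp fun _ => fr_tv

theorem nrm_ind {x : Cl ρ} (f : ∀ h ∈ H', sg ρ h x = x) (le : H' ≤ H) (t : Tv H H' T)
    (t' : Tv H H' T') : ∑ s ∈ T, sg ρ s x = ∑ s ∈ T', sg ρ s x :=
  (tv_fr ℤ t' le).rei (v := id) (p := fun s => sg ρ s x) (fun u _ h hh => by rw [sg_mul, f h hh]) t.1
    (tv_fr ℤ t le).rep

theorem nrm_tow {x : Cl ρ} (f : ∀ h ∈ K, sg ρ h x = x) (l1 : H ≤ Γ) (l2 : K ≤ H) (t : Tv Γ K T)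
    (t1 : Tv Γ H U) (t2 : Tv H K T') :
    ∑ s ∈ T, sg ρ s x = ∑ u ∈ U, sg ρ u (∑ s ∈ T', sg ρ s x) := by
  rw [(tv_fr ℤ t (l2.trans l1)).tow (tv_fr ℤ t1 l1) (tv_fr ℤ t2 l2) (p := fun s => sg ρ s x)
    fun u _ h hh => by rw [sg_mul, f h hh]]
  simp only [map_sum, sg_mul]

theorem nrm_swap {x : Cl ρ} (f : ∀ h ∈ K, sg ρ h x = x) (l1 : H ≤ Γ) (l2 : K ≤ H) (l3 : H' ≤ Γ)
    (l4 : K ≤ H') (t1 : Tv Γ H U) (t2 : Tv H K T) (t3 : Tv Γ H' U') (t4 : Tv H' K T') :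
    ∑ u ∈ U, sg ρ u (∑ s ∈ T, sg ρ s x) = ∑ u ∈ U', sg ρ u (∑ s ∈ T', sg ρ s x) := by
  obtain ⟨V, v⟩ := fr_mul (tv_fr ℤ t1 l1) (tv_fr ℤ t2 l2)
  rw [← nrm_tow f l1 l2 (fr_tv v) t1 t2, nrm_tow f l3 l4 (fr_tv v) t3 t4]

/-- restriction to `Ha` of a corestriction -/
theorem cr_cl (c : Cr Γ H (fun _ => 1) (rr ρ) z y) (le : Ha ≤ H) (t : Tv Γ H U) :
    cl ρ y = ∑ u ∈ U, sg ρ u (cl ρ z) := by
  obtain ⟨m, hm⟩ := c.core (rp ρ Γ) (tv_fr R t c.le)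
  simp only [sg_cl, ← map_sum]
  refine (cl_eq ρ).2 ⟨m, fun g hg => ?_⟩
  rw [hm g (c.le (le hg)) fun u _ => le (Ha_normal.conj_mem' g hg u), Finset.sum_apply]
  simp only [one_smul]
  exact add_sub_cancel_left _ _

theorem ex_co (c : Co H ρ z) (o : IsOpen (H : Set GQ)) (le : H ≤ Γ) :
    ∃ y, Co Γ ρ y ∧ Cr Γ H (fun _ => 1) (rr ρ) z y := by
  obtain ⟨U, t⟩ := ex_tv o le
  have f := tv_fr R t le
  obtain ⟨Y, e, e0⟩ := ex_xt f (rp ρ Γ) c.coc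
  have k : Cr Γ H (fun _ => 1) (rr ρ) z _ := ⟨U, Y, f, e, fun _ _ => rfl⟩
  obtain ⟨W, oW, hW⟩ := c.lc
  refine ⟨_, ⟨cr_z1 ρ k, (W ⊓ H).normalCore, P022K.GW.Pl.core_open (oW.inter o), fun w hw _ => sum_eq_zero fun u hu => ?_⟩, k⟩
  have m := (W ⊓ H).normalCore_le ((W ⊓ H).normalCore_normal.conj_mem' w hw u)
  rw [show w * u = u * (u⁻¹ * w * u) by group, e u (t.1 u hu) _ m.2, e0 u hu, hW _ m.1 m.2]
  simp

end

variable {N : ℕ} {ρ : GQ →* M2 (Zn N)} {S : Finset ℕ} {a : ℕ → ℤ} {Ad : ℕ → Prop}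
  {z : ℕ → GQ → Fin 2 → Zn N} {n0 : ℕ}

/-- **the raw Euler system** -/
theorem raw (h0 : n0 ≠ 0) (gr : Gr ρ S a Ad) (co : ∀ M, Ad M → Co (Hm (M * n0)) ρ (z M))
    (two : ∀ M, Ad M → ∃ T, Tv (Hm (M * n0)) (Hm (M * 2 * n0)) T ∧
      ∑ t ∈ T, sg ρ t (cl ρ (z (M * 2))) = cl ρ (z M))
    (odd : ∀ M l P φ, Ad M → Ov l P → l ∉ S → ¬ l ∣ M → Fb l P φ →
      ∃ T, Tv (Hm (M * n0)) (Hm (M * l * n0)) T ∧ l • ∑ t ∈ T, sg ρ t (cl ρ (z (M * l))) =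
        l • cl ρ (z M) - a l • sg ρ φ⁻¹ (cl ρ (z M)) + sg ρ (φ⁻¹ ^ 2) (cl ρ (z M))) :
    ∃ y, Raw ρ S a Ad y ∧ ∀ M, Ad M → Cr (Hm M) (Hm (M * n0)) (fun _ => 1) (rr ρ) (z M) (y M) := by
  have nz : ∀ M, Ad M → M * n0 ≠ 0 := fun M h => mul_ne_zero (gr.pos M h) h0
  have le : ∀ M k, Hm (M * k) ≤ Hm M := fun M k => Hm_le (dvd_mul_right M k)
  choose! y y1 y2 using fun M h => ex_co (co M h) (Hm_open (nz M h)) (le M n0)
  have key : ∀ M k, Ad M → Ad (M * k) → ∀ T', Tv (Hm (M * n0)) (Hm (M * k * n0)) T' →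
      ∃ T U, Tv (Hm M) (Hm (M * k)) T ∧ cl ρ (y M) = ∑ u ∈ U, sg ρ u (cl ρ (z M)) ∧
        cl ρ (∑ s ∈ T, cj ρ s (y (M * k))) = ∑ u ∈ U, sg ρ u (∑ t ∈ T', sg ρ t (cl ρ (z (M * k)))) := by
    intro M k h h' T' t'
    obtain ⟨T, t⟩ := ex_tv (Hm_open (gr.pos _ h')) (le M k)
    obtain ⟨U, u⟩ := ex_tv (Hm_open (nz M h)) (le M n0)
    obtain ⟨U', u'⟩ := ex_tv (Hm_open (nz _ h')) (le (M * k) n0)
    refine ⟨T, U, t, cr_cl (y2 M h) (Ha_le (nz M h)) u, ?_⟩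
    simp only [map_sum (cl ρ), ← sg_cl, cr_cl (y2 _ h') (Ha_le (nz _ h')) u']
    exact nrm_swap (fun g => sg_fix (co _ h').coc (Ha_le (nz _ h'))) (le M k) (le _ n0) (le M n0)
      (Hm_le ⟨k, by ring⟩) t u' u t'
  refine ⟨y, ⟨y1, fun M h => ?_, fun M l P φ h o hS hl fb => ?_⟩, y2⟩
  · obtain ⟨T', t', e⟩ := two M h
    obtain ⟨T, U, t, e1, e2⟩ := key M 2 h (gr.ad2 M h) T' t'
    exact ⟨T, t, (cl_eq ρ).1 (by rw [e2, e, e1])⟩
  · obtain ⟨T', t', e⟩ := odd M l P φ h o hS hl fb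
    obtain ⟨T, U, t, e1, e2⟩ := key M l h (gr.adl M l h o.1 hS hl) T' t'
    have c := sg_comm fun g hg => sg_fix (co M h).coc (Ha_le (nz M h)) (Ha_le (nz M h) hg)
    refine ⟨T, t, (cl_eq ρ).1 ?_⟩
    rw [map_nsmul, e2, map_add, map_sub, map_nsmul, map_zsmul, ← sg_cl, ← sg_cl, e1, ← sum_nsmul]
    simp only [← map_nsmul (sg ρ _), e]
    simp only [map_add, map_sub, map_nsmul, map_zsmul, map_sum, sum_nsmul, sum_zsmul,
      sum_add_distrib, sum_sub_distrib, c φ⁻¹, c (φ⁻¹ ^ 2)]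

variable {A : Type} [CommRing A] (ι : Zn N →+* A) (Ψ : GQ →* A) {H K : Subgroup GQ}
  {x y : GQ → Fin 2 → Zn N}

/-- the action after the change of coefficients -/
abbrev mp (ρ : GQ →* M2 (Zn N)) : GQ →* M2 A := ι.mapMatrix.toMonoidHom.comp ρ

theorem tw_aa (g : GQ) (v : Fin 2 → A) : tw Ψ (rr (mp ι ρ)) g v = aa ρ ι Ψ g *ᵥ v :=
  (smul_mulVec (Ψ g) ((ρ g).map ι) v).symm

theorem io_vec (g : GQ) (v : Fin 2 → Zn N) : ι ∘ (ρ g *ᵥ v) = rr (mp ι ρ) g (ι ∘ v) :=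
  funext fun i => RingHom.map_mulVec ι _ _ i

/-- the explicit corestriction is a corestriction -/
theorem cor_cr0 (o : IsOpen (H : Set GQ)) (hΨ : ∀ g ∈ H, Ψ g = 1) (c : Z1 H (rr ρ) y) :
    Cr ⊤ H Ψ (rr (mp ι ρ)) (fun g => ι ∘ y g) (cor ρ ι Ψ H y) := by
  classical
  have := P022K.G2.cpt
  have := H.quotient_finite_of_isOpen o
  have := Fintype.ofFinite (GQ ⧸ H)
  have m : ∀ u : GQ, (u : GQ ⧸ H).out⁻¹ * u ∈ H := fun u => QuotientGroup.eq.1 (Quotient.out_eq _)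
  refine ⟨univ.image fun q : GQ ⧸ H => q.out,
    fun u => rr (mp ι ρ) (u : GQ ⧸ H).out (ι ∘ y ((u : GQ ⧸ H).out⁻¹ * u)),
    ⟨le_top, fun _ _ => trivial, fun g _ => ⟨(g : GQ ⧸ H).out, ⟨mem_image_of_mem _ (mem_univ _),
      by simpa using inv_mem (m g)⟩, ?_⟩, fun g _ h _ => map_mul Ψ g h, hΨ⟩, fun u _ h hh => ?_,
    fun g _ => ?_⟩
  · rintro _ ⟨a, b⟩
    obtain ⟨q, -, rfl⟩ := mem_image.1 a
    rw [QuotientGroup.eq.2 b, QuotientGroup.out_eq']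
  · simp only
    rw [QuotientGroup.mk_mul_of_mem u hh, ← mul_assoc, c _ (m u) h hh, show ∀ a b, ι ∘ (a + b : Fin 2 → _) = ι ∘ a + ι ∘ b from
      fun a b => funext fun i => map_add ι _ _, map_add, rr_ap ρ,
      io_vec, ← (rp _ ⊤).mul _ trivial _ trivial, mul_inv_cancel_left]
  · rw [cor, finsum_eq_sum_of_fintype, cr,
      sum_image (g := fun q : GQ ⧸ H => q.out) fun _ _ _ _ h => Quotient.out_injective h,
      ← Equiv.sum_comp (MulAction.toPerm g)]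
    refine sum_congr rfl fun q _ => ?_
    have e : ((g * q.out : GQ) : GQ ⧸ H) = g • q := MulAction.Quotient.mk_smul_out H g q
    have e2 := hΨ _ (m (g * q.out))
    simp only [MulAction.toPerm_apply, inv_smul_smul, QuotientGroup.out_eq', inv_mul_cancel,
      c.one (rp ρ H).one, ← tw_aa, ← e, mul_assoc]
    rw [← mul_inv_cancel_left ((g * q.out : GQ) : GQ ⧸ H).out (g * q.out), map_mul Ψ, e2, mul_one,
      mul_inv_cancel_left]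
    simp [tw]

/-- the total corestriction -/
theorem cor_cr (o : IsOpen (H : Set GQ)) (hΨ : ∀ g ∈ H, Ψ g = 1)
    (c : Cr H K (fun _ => 1) (rr ρ) x y) :
    Cr ⊤ K Ψ (rr (mp ι ρ)) (fun g => ι ∘ x g) (cor ρ ι Ψ H y) :=
  (c.map (r' := rr (mp ι ρ)) (ψ' := fun _ => 1) (ι.toAddMonoidHom.compLeft (Fin 2))
    (fun g _ v => io_vec ι g v) (by simp) (by simp) (by simp)).trans
    (cor_cr0 ι Ψ o hΨ (cr_z1 ρ c)) (rp _ ⊤)

end Vale.Agent.P014T.Nr
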