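import Vale.Agent.P014T.Nr.Two
import Vale.Agent.P014T.Nr.Odd
import Vale.Agent.P014T.Nr.Cor

/-! # P014T, block NR: the raw Euler system of the classes of symbols (helper48) -/

set_option autoImplicit false
set_option linter.all false

open CongruenceSubgroup Finset NumberField
open scoped MatrixGroups Matrix

noncomputable section

namespace Vale.Agent.P014T.Nr

open Vale.Agent.P022 H231.L3 P027M.M P027M.M.Dp
open Vale.Agent.P022E.GW (Ov Fb)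
open Dr (Hm Ha Tv Ha_le Hm_le Hm_open Zn Co Gr Raw root_cong)
open Ur (Cr)

theorem fb_cyc {l n : ℕ} {P : Ideal (𝓞 Qb)} {φ : GQ} (o : Ov l P) (f : Fb l P φ) (h : ¬ l ∣ n) :
    Cyc n φ l := (cyc_iff (Nat.pos_of_ne_zero fun e => h (by simp [e]))).2 fun z hz => by
  rw [root_cong o h f hz, zpow_natCast]

theorem hm_iff {n L : ℕ} {g : GQ} {k : ℤ} (L0 : 0 < L) (d : n ∣ L) (y : Cyc L g k) :
    g ∈ Hm n ↔ (n : ℤ) ∣ k - 1 := by
  have n0 := Nat.pos_of_dvd_of_pos d L0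
  rw [← cyc_one n0, cyc_congr n0 (cyc_dvd L0 d y)]

/-- transversals go down along a coprime factor -/
theorem tv_cop {n D q : ℕ} (L0 : 0 < n * D * q) (cop : D.Coprime q) {T : Finset GQ}
    (t : Tv (Hm (n * D)) (Hm (n * D * q)) T) : Tv (Hm n) (Hm (n * q)) T := by
  have d1 : n * D ∣ n * D * q := dvd_mul_right _ _
  have d2 : n * q ∣ n * D * q := ⟨D, by ring⟩
  obtain ⟨u, v, e⟩ := Nat.isCoprime_iff_coprime.2 cop
  refine ⟨fun s a => Hm_le (dvd_mul_right n D) (t.1 s a), fun g a => ?_⟩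
  obtain ⟨k, y⟩ := cyc_ex L0 g
  obtain ⟨j, b⟩ := (hm_iff L0 ((dvd_mul_right n D).trans d1) y).1 a
  have c : ((n * q : ℕ) : ℤ) ∣ k - (1 + n * D * u * j) :=
    ⟨v * j, by push_cast; linear_combination b - n * j * e⟩
  obtain ⟨h, z⟩ := cyc_surj L0 (k := 1 + n * D * u * j) (by
    rw [Nat.cast_mul (n * D)]
    refine IsCoprime.mul_right ⟨1, -u * j, by push_cast; ring⟩ ?_
    obtain ⟨w, c⟩ := c
    obtain ⟨r, s, f⟩ := (cyc_cop L0 y).of_isCoprime_of_dvd_right (show (q : ℤ) ∣ _ from by simp)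
    exact ⟨r, s + r * n * w, by push_cast at c; linear_combination f - r * c⟩)
  have q0 := Nat.pos_of_dvd_of_pos d2 L0
  have m1 : h ∈ Hm (n * D) := (hm_iff L0 d1 z).2 ⟨u * j, by push_cast; ring⟩
  have m2 : h⁻¹ * g ∈ Hm (n * q) := (cyc_rel q0 (cyc_dvd L0 d2 z)).1
    ((cyc_congr q0 (cyc_dvd L0 d2 y)).2 c)
  refine (existsUnique_congr fun s => and_congr_right fun m => ⟨fun f => ?_, fun f => ?_⟩).1 (t.2 h m1)
  · simpa [mul_assoc] using mul_mem (Hm_le d2 f) m2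
  · obtain ⟨k', y'⟩ := cyc_ex L0 (s⁻¹ * h)
    obtain ⟨r, f1⟩ := (hm_iff L0 d1 y').1 (mul_mem (inv_mem (t.1 s m)) m1)
    obtain ⟨r', f2⟩ := (hm_iff L0 d2 y').1 (by simpa [mul_assoc] using mul_mem f (inv_mem m2))
    exact (hm_iff L0 dvd_rfl y').2 ⟨v * r + u * r', by
      push_cast at f1 f2 ⊢
      linear_combination v * q * f1 + u * D * f2 - (k' - 1) * e⟩

section

variable {C ι : Type} [AddCommGroup C] {σ : GQ →* AddMonoid.End C} {s : Finset ι} {w : ι → ℤ}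
  {f F : ι → C}

theorem sum_sw (T : Finset GQ) :
    ∑ t ∈ T, σ t (∑ i ∈ s, w i • f i) = ∑ i ∈ s, w i • ∑ t ∈ T, σ t (f i) := by
  simp only [map_sum, map_zsmul, smul_sum]
  exact sum_comm

theorem sum_eu {l : ℕ} {a : ℤ} {φ ψ : AddMonoid.End C}
    (h : ∀ i ∈ s, l • F i = l • f i - a • φ (f i) + ψ (f i)) : l • ∑ i ∈ s, w i • F i =
      l • ∑ i ∈ s, w i • f i - a • φ (∑ i ∈ s, w i • f i) + ψ (∑ i ∈ s, w i • f i) := by
  simp only [map_sum, map_zsmul, smul_sum, ← sum_sub_distrib, ← sum_add_distrib]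
  refine sum_congr rfl fun i b => ?_
  rw [smul_comm l, h i b]
  module

end

variable {X : Mdl} {Ξ : Type} [AddCommGroup Ξ] [DistribMulAction Au Ξ] {m k : ℕ}
  {Cu : AddSubgroup Ξ} {ρ : GQ →* P004F.M2 (Zn k)} {Z : Subgroup SL(2, ℤ) → Ξ → FF → FF → Cl ρ} {ξ : Ξ}
  {N c d n0 D : ℕ} {S : Finset ℕ} {a : ℕ → ℤ} {Ad : ℕ → Prop} {ι : Type} {s : Finset ι} {w : ι → ℤ}
  {A : ι → M2} {z : ℕ → GQ → Fin 2 → Zn k}

theorem odd_of {c : ℕ} (h : c ^ 2 % 24 = 1) : Nat.Coprime 2 c :=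
  Nat.coprime_two_left.2 ((Nat.odd_pow_iff two_ne_zero).1 (Nat.odd_iff.2 (by omega : c ^ 2 % 2 = 1)))

/-- **the raw Euler system** of the classes `∑ w i • ZL (A i)` of level `M n0 D` -/
theorem kat (R : Ru X m Cu (sg ρ) Z) (gr : Gr ρ S a Ad)
    (x : ∀ i ∈ s, Cx X m Cu ξ N c d (n0 * D) (A i) ∧ ¬ (2 : ℤ) ∣ (A i).det) (oD : Odd D)
    (L0 : 0 < n0 * D) (hS : ∀ l : ℕ, l.Prime → l ∉ S →
      ¬ l ∣ n0 * D * (c * d) ∧ Hk X ξ l (a l) ∧ ∀ i ∈ s, ¬ (l : ℤ) ∣ (A i).det)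
    (hz : ∀ M, Ad M → Co (Hm (M * n0)) ρ (z M) ∧
      cl ρ (z M) = ∑ i ∈ s, w i • ZL Z ξ c d (M * n0 * D) (A i)) :
    ∃ y, Raw ρ S a Ad y ∧ ∀ M, Ad M → Cr (Hm M) (Hm (M * n0)) (fun _ => 1) (rr ρ) (z M) (y M) := by
  have p0 : ∀ M, Ad M → 0 < M * n0 * D := fun M h => by
    rw [mul_assoc]
    exact Nat.mul_pos (Nat.pos_of_ne_zero (gr.pos M h)) L0
  have cx : ∀ M, Ad M → ∀ i ∈ s, Cx X m Cu ξ N c d (M * n0 * D) (A i) := fun M h i b => by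
    rw [mul_assoc, mul_comm]
    exact (x i b).1.up (Nat.pos_of_ne_zero (gr.pos M h)) Cg.rfl
  have key : ∀ M q, Ad M → Ad (M * q) → D.Coprime q → ∃ T, Tv (Hm (M * n0)) (Hm (M * q * n0)) T ∧
      Tv (Hm (M * n0 * D)) (Hm (M * n0 * D * q)) T ∧ ∑ t ∈ T, sg ρ t (cl ρ (z (M * q))) =
        ∑ i ∈ s, w i • ∑ t ∈ T, sg ρ t (ZL Z ξ c d (M * n0 * D * q) (A i)) := fun M q h h' cop => by
    have e : M * q * n0 * D = M * n0 * D * q := by ring
    have q0 := e ▸ p0 _ h'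
    obtain ⟨T, t⟩ := ex_tv (Hm_open q0.ne') (Hm_le (dvd_mul_right _ q))
    refine ⟨T, mul_right_comm M n0 q ▸ tv_cop q0 cop t, t, ?_⟩
    rw [(hz _ h').2, e, sum_sw]
  refine raw (by rintro rfl; simp at L0) gr (fun M h => (hz M h).1) (fun M h => ?_)
    fun M l P φ h o hl lM fb => ?_
  · obtain ⟨T, t, t', e⟩ := key M 2 h (gr.ad2 M h) (Nat.coprime_two_right.2 oD)
    refine ⟨T, t, ?_⟩
    rw [e, (hz M h).2]
    exact sum_congr rfl fun i b => by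
      rw [d2 R ξ N c d _ _ (cx M h i b) 2 Nat.prime_two ((by simp : 2 ∣ 4).trans (cx M h i b).four)
        ((odd_of (x i b).1.hc).mul_right (odd_of (x i b).1.hd)) (x i b).2 T t']
  · obtain ⟨h1, h2, h3⟩ := hS l o.1 hl
    have nl : ¬ l ∣ M * n0 * D := fun e => (o.1.dvd_mul.1 (mul_assoc M n0 D ▸ e)).elim lM
      fun e => h1 (e.mul_right _)
    obtain ⟨T, t, t', e⟩ := key M l h (gr.adl M l h o.1 hl lM)
      (o.1.coprime_iff_not_dvd.2 fun e => nl (e.mul_left _)).symm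
    refine ⟨T, t, ?_⟩
    rw [e, (hz M h).2]
    exact sum_eu fun i b => dl R ξ N c d _ _ (cx M h i b) l (a l) φ o.1 nl
      (o.1.coprime_iff_not_dvd.2 fun e => h1 (e.mul_left _)) (h3 i b) h2 (fb_cyc o fb nl) T t'

end Vale.Agent.P014T.Nr
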