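import Vale.Agent.P027M.M.Dp2

/-! # P014T, block NR: congruences, lifts, stabilisers, transversals (helper48) -/

set_option autoImplicit false
set_option linter.all false

open CongruenceSubgroup Matrix
open scoped MatrixGroups

noncomputable section

namespace Vale.Agent.P014T.Nr

open P027M.M P027M.M.Dp

theorem ex_cop {c d n : ℤ} (c0 : c ≠ 0)
    (h : ∀ q : ℕ, q.Prime → (q : ℤ) ∣ c → (q : ℤ) ∣ d → ¬ (q : ℤ) ∣ n) :
    ∃ t, IsCoprime (d + t * n) c := by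
  classical
  refine ⟨∏ p ∈ c.natAbs.primeFactors.filter fun p : ℕ => ¬ (p : ℤ) ∣ d, (p : ℤ),
    Int.isCoprime_iff_gcd_eq_one.2 <|
    Nat.Coprime.gcd_eq_one (Nat.coprime_of_dvd fun q hq a b => ?_)⟩
  have i := Nat.prime_iff_prime_int.1 hq
  replace a := Int.natCast_dvd.2 a
  by_cases e : (q : ℤ) ∣ d
  · rcases i.dvd_or_dvd ((dvd_add_right e).1 a) with k | k
    · obtain ⟨p, m, k⟩ := (i.dvd_finset_prod_iff _).1 k
      obtain ⟨m, m'⟩ := Finset.mem_filter.1 m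
      rw [← (Nat.prime_dvd_prime_iff_eq hq (Nat.prime_of_mem_primeFactors m)).1
        (Int.natCast_dvd_natCast.1 k)] at m'
      exact m' e
    · exact h q hq (Int.natCast_dvd.2 b) e k
  · exact e ((dvd_add_left (Dvd.dvd.mul_right (Finset.dvd_prod_of_mem _ (Finset.mem_filter.2
      ⟨Nat.mem_primeFactors.2 ⟨hq, b, Int.natAbs_ne_zero.2 c0⟩, e⟩)) _)).1 a)

/-- congruent vectors -/
def Cv (n : ℤ) (w w' : Fin 2 → ℤ) : Prop := ∀ i, n ∣ w i - w' i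

/-- congruent matrices -/
def Cg (n : ℤ) (A B : M2) : Prop := ∀ i j, n ∣ A i j - B i j

section

variable {n : ℤ} {w w' w'' : Fin 2 → ℤ} {A B G : M2}

theorem Cv.rfl : Cv n w w := fun i => by simp

theorem Cv.symm (h : Cv n w w') : Cv n w' w := fun i => dvd_sub_comm.1 (h i)

theorem Cv.trans (h : Cv n w w') (k : Cv n w' w'') : Cv n w w'' := fun i => by
  simpa using dvd_add (h i) (k i)

theorem vm (w : Fin 2 → ℤ) (A : M2) (j : Fin 2) : (w ᵥ* A) j = w 0 * A 0 j + w 1 * A 1 j := by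
  simp [vecMul, dotProduct, Fin.sum_univ_two]

theorem mm (A B : M2) (i j : Fin 2) : (A * B) i j = A i 0 * B 0 j + A i 1 * B 1 j := by
  simp [mul_apply, Fin.sum_univ_two]

theorem row_mul (A B : M2) (i : Fin 2) : (A * B) i = A i ᵥ* B := funext fun j => by rw [mm, vm]

theorem Cv.mul (h : Cv n w w') (k : Cg n A B) : Cv n (w ᵥ* A) (w' ᵥ* B) := fun j => by
  rw [vm, vm, show w 0 * A 0 j + w 1 * A 1 j - (w' 0 * B 0 j + w' 1 * B 1 j) = (w 0 - w' 0) * A 0 j +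
    (w 1 - w' 1) * A 1 j + w' 0 * (A 0 j - B 0 j) + w' 1 * (A 1 j - B 1 j) by ring]
  exact (((h 0).mul_right _).add ((h 1).mul_right _)).add ((k 0 j).mul_left _) |>.add
    ((k 1 j).mul_left _)

theorem Cg.rfl : Cg n A A := fun _ => Cv.rfl

theorem Cg.symm (h : Cg n A B) : Cg n B A := fun i => Cv.symm (h i)

theorem Cg.trans (h : Cg n A B) (k : Cg n B G) : Cg n A G := fun i => Cv.trans (h i) (k i)

theorem Cg.mul {A' B' : M2} (h : Cg n A A') (k : Cg n B B') : Cg n (A * B) (A' * B') := fun i j => by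
  rw [row_mul, row_mul]
  exact Cv.mul (h i) k j

theorem Cg.det (h : Cg n A B) : n ∣ A.det - B.det := by
  rw [det_fin_two, det_fin_two, show A 0 0 * A 1 1 - A 0 1 * A 1 0 - (B 0 0 * B 1 1 - B 0 1 * B 1 0) =
    (A 0 0 - B 0 0) * A 1 1 + B 0 0 * (A 1 1 - B 1 1) - (A 0 1 - B 0 1) * A 1 0 -
      B 0 1 * (A 1 0 - B 1 0) by ring]
  exact ((((h 0 0).mul_right _).add ((h 1 1).mul_left _)).sub ((h 0 1).mul_right _)).sub
    ((h 1 0).mul_left _)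

/-- **lifting of matrices of determinant one** -/
theorem lift (n0 : n ≠ 0) (h : n ∣ G.det - 1) : ∃ γ : SL(2, ℤ), Cg n γ G := by
  obtain ⟨k, h⟩ := h
  rw [det_fin_two] at h
  obtain ⟨s, c0⟩ : ∃ s, G 1 0 + s * n ≠ 0 := by
    by_cases e : G 1 0 = 0
    exacts [⟨1, by simpa [e] using n0⟩, ⟨0, by simpa using e⟩]
  obtain ⟨t, x, y, e⟩ := ex_cop (d := G 1 1) (n := n) c0 fun q hq a b c =>
    (Nat.prime_iff_prime_int.1 hq).not_dvd_one (by
      obtain ⟨a, ha⟩ := a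
      obtain ⟨b, hb⟩ := b
      obtain ⟨c, hc⟩ := c
      exact ⟨G 0 0 * b - G 0 1 * (a - s * c) - c * k, by
        linear_combination -h + G 0 0 * hb - G 0 1 * ha + (G 0 1 * s - k) * hc⟩)
  let r := k + G 0 0 * t - G 0 1 * s
  refine ⟨mk (G 0 0 - r * n * x) (G 0 1 + r * n * y) (G 1 0 + s * n) (G 1 1 + t * n)
    (by linear_combination h - r * n * e), ?_⟩
  simp only [Cg, Fin.forall_fin_two, mk00, mk01, mk10, mk11]
  exact ⟨⟨⟨-r * x, by ring⟩, r * y, by ring⟩, ⟨s, by ring⟩, t, by ring⟩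

end

theorem mem_Ga {n : ℕ} {γ : SL(2, ℤ)} : γ ∈ Gamma n ↔ Cg n γ 1 := by
  simp only [Gamma_mem, Cg, Fin.forall_fin_two, ← ZMod.intCast_zmod_eq_zero_iff_dvd, and_assoc]
  simp [sub_eq_zero]

theorem mem_G0 {n : ℕ} {γ : SL(2, ℤ)} : γ ∈ Gamma0 n ↔ (n : ℤ) ∣ γ 1 0 := by
  rw [Gamma0_mem, ZMod.intCast_zmod_eq_zero_iff_dvd]

theorem Ga_le {n k : ℕ} (h : n ∣ k) : Gamma k ≤ Gamma n := fun _ m =>
  mem_Ga.2 fun i j => (Int.natCast_dvd_natCast.2 h).trans (mem_Ga.1 m i j)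

theorem Ga_G0 {n k : ℕ} (h : n ∣ k) : Gamma k ≤ Gamma0 n := fun _ m =>
  mem_G0.2 ((Int.natCast_dvd_natCast.2 h).trans (by simpa using mem_Ga.1 m 1 0))

/-- `γ = 1 + n B` -/
def Bx (n : ℕ) (γ B : M2) : Prop := ∀ i j, γ i j = (1 : M2) i j + n * B i j

theorem ex_B {n : ℕ} {γ : SL(2, ℤ)} (h : γ ∈ Gamma n) : ∃ B, Bx n γ B := by
  choose B e using mem_Ga.1 h
  exact ⟨of B, fun i j => sub_eq_iff_eq_add'.1 (e i j)⟩

theorem Bx.det {n : ℕ} {γ B : M2} (h : Bx n γ B) :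
    γ.det = 1 + n * (B 0 0 + B 1 1 + n * B.det) := by
  simp only [det_fin_two, h 0 0, h 0 1, h 1 0, h 1 1]
  simp
  ring

theorem vm_mul (w : Fin 2 → ℤ) (γ δ : SL(2, ℤ)) :
    w ᵥ* (γ : M2) ᵥ* (δ : M2) = w ᵥ* ((γ * δ : SL(2, ℤ)) : M2) := vecMul_vecMul _ _ _

theorem vm_one (w : Fin 2 → ℤ) : w ᵥ* ((1 : SL(2, ℤ)) : M2) = w := vecMul_one _

/-- the stabiliser of a vector modulo `n` -/
def St (n : ℤ) (w : Fin 2 → ℤ) : Subgroup SL(2, ℤ) where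
  carrier := {γ | Cv n (w ᵥ* γ) w}
  one_mem' := by simpa using Cv.rfl
  mul_mem' {γ δ} a b := by
    have := (Cv.mul a (Cg.rfl (A := δ))).trans b
    rwa [vm_mul] at this
  inv_mem' {γ} a := by
    have := (Cv.mul a (Cg.rfl (A := (γ⁻¹ : SL(2, ℤ))))).symm
    rwa [vm_mul, mul_inv_cancel, vm_one] at this

theorem mem_St {n : ℤ} {w : Fin 2 → ℤ} {γ : SL(2, ℤ)} : γ ∈ St n w ↔ Cv n (w ᵥ* γ) w := Iff.rfl

theorem St_key {n : ℤ} {w : Fin 2 → ℤ} {γ δ : SL(2, ℤ)} :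
    γ * δ⁻¹ ∈ St n w ↔ Cv n (w ᵥ* γ) (w ᵥ* δ) := by
  refine ⟨fun h => ?_, fun h => ?_⟩
  · have := Cv.mul h (Cg.rfl (A := δ))
    rwa [vm_mul, inv_mul_cancel_right] at this
  · have := Cv.mul h (Cg.rfl (A := (δ⁻¹ : SL(2, ℤ))))
    rwa [vm_mul, vm_mul, mul_inv_cancel, vm_one] at this

theorem Ga_St {n : ℕ} (w : Fin 2 → ℤ) : Gamma n ≤ St n w := fun γ m => by
  simpa [mem_St] using Cv.mul (Cv.rfl (w := w)) (mem_Ga.1 m)

/-- transversals from orbits -/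
theorem reps_orb {Γ : Subgroup SL(2, ℤ)} {n : ℤ} {w : Fin 2 → ℤ} {O : Type} {W : O → Fin 2 → ℤ}
    (s : Finset O) (inj : ∀ e e', Cv n (W e) (W e') → e = e')
    (h1 : ∀ e ∈ s, ∃ γ ∈ Γ, Cv n (w ᵥ* γ) (W e)) (h2 : ∀ γ ∈ Γ, ∃ e ∈ s, Cv n (w ᵥ* γ) (W e)) :
    ∃ r : s → SL(2, ℤ), Reps Γ (Γ ⊓ St n w) r ∧ ∀ e, Cv n (w ᵥ* r e) (W e) := by
  choose r m k using h1
  refine ⟨fun e => r e e.2, ⟨fun e => m _ _, fun γ h => ?_, fun i j h => ?_⟩, fun e => k _ _⟩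
  · obtain ⟨e, a, b⟩ := h2 γ h
    exact ⟨⟨e, a⟩, Γ.mul_mem h (Γ.inv_mem (m _ _)), St_key.2 (b.trans (k _ a).symm)⟩
  · exact Subtype.ext (inj _ _ ((k _ _).symm.trans ((St_key.1 h.2).trans (k _ _))))

/-- the vector `w + n e` -/
def Wv (n : ℕ) {p : ℕ} (w : Fin 2 → ℤ) (e : Fin 2 → ZMod p) : Fin 2 → ℤ := fun i => w i + n * (e i).val

section

variable {n p : ℕ} [NeZero p] {w : Fin 2 → ℤ} {e e' : Fin 2 → ZMod p}

theorem dvd_np (n0 : 0 < n) {x : ℤ} : ((n * p : ℕ) : ℤ) ∣ n * x ↔ (x : ZMod p) = 0 := by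
  rw [Nat.cast_mul, mul_dvd_mul_iff_left (Nat.cast_ne_zero.2 n0.ne'), ZMod.intCast_zmod_eq_zero_iff_dvd]

theorem cvW (n0 : 0 < n) {γ B : M2} (h : Bx n γ B) :
    Cv (n * p : ℕ) (Wv n w e ᵥ* γ) (Wv n w e') ↔
      ∀ j, e' j = e 0 * γ 0 j + e 1 * γ 1 j + w 0 * B 0 j + w 1 * B 1 j := by
  refine forall_congr' fun j => ?_
  have : (Wv n w e ᵥ* γ) j - Wv n w e' j = n * ((e 0).val * γ 0 j + (e 1).val * γ 1 j +
      w 0 * B 0 j + w 1 * B 1 j - (e' j).val) := by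
    have c : w j = w 0 * (1 : M2) 0 j + w 1 * (1 : M2) 1 j := by rw [← vm, vecMul_one]
    simp only [vm, Wv]
    linear_combination w 0 * h 0 j + w 1 * h 1 j - c
  rw [this, dvd_np n0]
  push_cast
  rw [ZMod.natCast_zmod_val, ZMod.natCast_zmod_val, ZMod.natCast_zmod_val, sub_eq_zero, eq_comm]

theorem Wv_inj (n0 : 0 < n) (e e' : Fin 2 → ZMod p) (h : Cv (n * p : ℕ) (Wv n w e) (Wv n w e')) :
    e = e' := funext fun j => by
  have := h j
  rw [Wv, Wv, add_sub_add_left_eq_sub, ← mul_sub, dvd_np n0] at this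
  simpa [sub_eq_zero] using this

theorem Wv_cv : Cv n (Wv n w e) w := fun i => by simp [Wv]

end

/-- elements of `Γ(n)` with given reduction modulo a new prime -/
theorem lift_cop {n l : ℕ} (n0 : 0 < n) (l0 : 0 < l) (h : IsCoprime (l : ℤ) n) {G : M2}
    (d : (l : ℤ) ∣ G.det - 1) : ∃ γ ∈ Gamma n, Cg l γ G := by
  obtain ⟨u, w, e⟩ := h
  have a : Cg n ((u * l) • 1 + (w * n) • G) 1 := fun i j => ⟨w * (G i j - (1 : M2) i j), by
    simp only [Matrix.add_apply, Matrix.smul_apply, smul_eq_mul]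
    linear_combination (1 : M2) i j * e⟩
  have b : Cg l ((u * l) • 1 + (w * n) • G) G := fun i j => ⟨u * ((1 : M2) i j - G i j), by
    simp only [Matrix.add_apply, Matrix.smul_apply, smul_eq_mul]
    linear_combination G i j * e⟩
  obtain ⟨γ, k⟩ := lift (n := n * l) (G := (u * l) • 1 + (w * n) • G) (by positivity)
    (IsCoprime.mul_dvd ⟨w, u, by rw [← e, add_comm]⟩ (by simpa using a.det)
      (by simpa using dvd_add b.det d))
  exact ⟨γ, mem_Ga.2 (Cg.trans (fun i j => (dvd_mul_right _ _).trans (k i j)) a),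
    Cg.trans (fun i j => (dvd_mul_left _ _).trans (k i j)) b⟩

/-- elements `1 + n B` with given `B` modulo a divisor of `n` -/
theorem lift_dvd {n p : ℕ} (n0 : 0 < n) (p0 : 0 < p) (h : p ∣ n) {G : M2} (d : (p : ℤ) ∣ G 0 0 + G 1 1) :
    ∃ γ ∈ Gamma n, ∃ B, Bx n γ B ∧ Cg p B G := by
  have b : Bx n (of fun i j => (1 : M2) i j + n * G i j) G := fun _ _ => rfl
  obtain ⟨γ, k⟩ := lift (n := n * p) (by positivity) (by
    rw [b.det, add_sub_cancel_left]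
    exact mul_dvd_mul_left _ (d.add ((Int.natCast_dvd_natCast.2 h).mul_right _)))
  have m : γ ∈ Gamma n := mem_Ga.2 (Cg.trans (fun i j => (dvd_mul_right _ _).trans (k i j))
    fun i j => by rw [b, add_sub_cancel_left]; exact dvd_mul_right _ _)
  obtain ⟨B, e⟩ := ex_B m
  refine ⟨γ, m, B, e, fun i j => ?_⟩
  have := k i j
  rw [e, b, add_sub_add_left_eq_sub, ← mul_sub] at this
  exact (mul_dvd_mul_iff_left (Nat.cast_ne_zero.2 n0.ne')).1 this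

theorem Bx.tr {n : ℕ} (n0 : 0 < n) {γ : SL(2, ℤ)} {B : M2} (h : Bx n γ B) :
    (n : ℤ) ∣ B 0 0 + B 1 1 :=
  ⟨-B.det, mul_left_cancel₀ (Nat.cast_ne_zero.2 n0.ne' : (n : ℤ) ≠ 0) (by
    linear_combination γ.det_coe - h.det)⟩

theorem prod_zmod {M : Type} [CommMonoid M] (p : ℕ) [NeZero p] (f : ℕ → M) :
    ∏ i : ZMod p, f i.val = ∏ i ∈ Finset.range p, f i :=
  Finset.prod_bij' (fun i _ => i.val) (fun j _ => (j : ZMod p)) (by simp [ZMod.val_lt]) (by simp)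
    (by simp) (fun j hj => ZMod.val_cast_of_lt (Finset.mem_range.1 hj)) (by simp)

end Vale.Agent.P014T.Nr
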