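import Vale.Agent.P014T.Nr.St
import Vale.Agent.P014T.Nr.Grp

/-! # P014T, block NR: calculus of the words (helper48) -/

set_option autoImplicit false
set_option linter.all false

open UpperHalfPlane CongruenceSubgroup Finset
open scoped MatrixGroups Matrix

noncomputable section

namespace Vale.Agent.P014T.Nr

open Vale.Agent.P022 H218.L3 H231.L3 P027M.M P027M.M.Dp P022K.QT.Cu
open Dr (Hm Ha Tv Ha_le Hm_le)
open Sg

/-! ### the cyclotomic character -/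

section cyc

variable {n n' : ℕ} {g g' : GQ} {k k' : ℤ}

theorem prim (n0 : 0 < n) : IsPrimitiveRoot (E ((1 : ℤ) / n)) n := by
  have : (n : ℚ) ≠ 0 := Nat.cast_ne_zero.2 n0.ne'
  refine ⟨by rw [← E_nat]; exact E_eq_one.2 ⟨1, by field_simp⟩, fun l h => ?_⟩
  rw [← E_nat, E_eq_one] at h
  obtain ⟨x, h⟩ := h
  refine Int.natCast_dvd_natCast.1 ⟨x, ?_⟩
  field_simp at h
  exact_mod_cast (mul_one _).symm.trans h

theorem cyc_iff (n0 : 0 < n) : Cyc n g k ↔ ∀ z : Qb, z ^ n = 1 → g z = z ^ k := by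
  have := NeZero.mk n0.ne'
  have e : E (k / n) = E ((1 : ℤ) / n) ^ k := by rw [← E_zpow]; congr 1; push_cast; ring
  refine ⟨fun h z hz => ?_, fun h a ha => ?_⟩
  · obtain ⟨i, -, rfl⟩ := (prim n0).eq_pow_of_pow_eq_one hz
    rw [map_pow, P027M.M.io_inj ((h _ (io_E_ze n 1)).trans (io_E_ze n k).symm), e, ← zpow_natCast,
      ← zpow_natCast, ← zpow_mul, ← zpow_mul, mul_comm]
  · rw [P027M.M.io_inj (ha.trans (io_E_ze n 1).symm), h _ (prim n0).pow_eq_one, ← e, io_E_ze]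

theorem cyc_one (n0 : 0 < n) : Cyc n g 1 ↔ g ∈ Hm n := by
  simp only [cyc_iff n0, zpow_one]
  rfl

theorem cyc_dvd (n0 : 0 < n') (d : n ∣ n') (h : Cyc n' g k) : Cyc n g k :=
  (cyc_iff (Nat.pos_of_dvd_of_pos d n0)).2 fun z hz => (cyc_iff n0).1 h z (by
    obtain ⟨q, rfl⟩ := d
    rw [pow_mul, hz, one_pow])

theorem cyc_congr (n0 : 0 < n) (h : Cyc n g k) : Cyc n g k' ↔ (n : ℤ) ∣ k - k' := by
  refine ⟨fun h' => ?_, fun ⟨q, e⟩ => (cyc_iff n0).2 fun z hz => ?_⟩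
  · rw [← (prim n0).zpow_eq_one_iff_dvd, zpow_sub₀ (E_ne _), ← (cyc_iff n0).1 h _ (prim n0).pow_eq_one,
      ← (cyc_iff n0).1 h' _ (prim n0).pow_eq_one, div_self ((_root_.map_ne_zero _).2 (E_ne _))]
  · have : z ≠ 0 := fun e => by simp [e, n0.ne'] at hz
    rw [(cyc_iff n0).1 h z hz, sub_eq_iff_eq_add.1 e, zpow_add₀ this, zpow_mul, zpow_natCast, hz,
      one_zpow, one_mul]

theorem cyc_mul (n0 : 0 < n) (h : Cyc n g k) (h' : Cyc n g' k') : Cyc n (g * g') (k * k') :=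
  (cyc_iff n0).2 fun z hz => by
    rw [AlgEquiv.mul_apply, (cyc_iff n0).1 h' z hz, map_zpow₀, (cyc_iff n0).1 h z hz, zpow_mul]

theorem cyc_ex (n0 : 0 < n) (g : GQ) : ∃ k, Cyc n g k := (serg n n0 g).1.imp fun _ h => h.2

theorem cyc_cop (n0 : 0 < n) (h : Cyc n g k) : IsCoprime k (n : ℤ) := ((serg n n0 g).2 k h).1

theorem cyc_inv (n0 : 0 < n) (h : Cyc n g k) (e : (n : ℤ) ∣ k' * k - 1) : Cyc n g⁻¹ k' := by
  obtain ⟨j, a⟩ := cyc_ex n0 g⁻¹
  have b := cyc_mul n0 a h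
  rw [inv_mul_cancel, cyc_congr n0 ((cyc_one n0).2 (one_mem _))] at b
  refine (cyc_congr n0 a).2 ?_
  rw [show j - k' = -j * (k' * k - 1) - k' * (1 - j * k) by ring]
  exact (e.mul_left _).sub (b.mul_left _)

theorem cyc_rel (n0 : 0 < n) (h : Cyc n g k) : Cyc n g' k ↔ g⁻¹ * g' ∈ Hm n := by
  obtain ⟨a, b, e⟩ := cyc_cop n0 h
  refine ⟨fun h' => (cyc_one n0).1 ((cyc_congr n0 (cyc_mul n0 (cyc_inv n0 (k' := a) h
    ⟨-b, by linear_combination e⟩) h')).2 ⟨-b, by linear_combination e⟩), fun m => ?_⟩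
  simpa using cyc_mul n0 h ((cyc_one n0).2 m)

theorem cyc_surj (n0 : 0 < n) (h : IsCoprime k (n : ℤ)) : ∃ g, Cyc n g k := by
  have := NeZero.mk n0.ne'
  have p := prim n0
  have q : IsPrimitiveRoot (E ((1 : ℤ) / n) ^ k) n :=
    p.zpow_of_gcd_eq_one k (Int.isCoprime_iff_gcd_eq_one.1 h)
  have h1 : Algebra.IsAlgebraic ℚ Qb := AlgebraicClosure.isAlgebraic ℚ
  have h2 : IsAlgClosure ℚ Qb := ⟨inferInstance, inferInstance⟩
  have h3 : IsGalois ℚ Qb := IsAlgClosure.isGalois ℚ Qb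
  obtain ⟨g, hg⟩ := isConjRoot_iff_exists_algEquiv.1 (show IsConjRoot ℚ _ _ from
    (Polynomial.cyclotomic_eq_minpoly_rat q n0).symm.trans (Polynomial.cyclotomic_eq_minpoly_rat p n0))
  refine ⟨g, (cyc_iff n0).2 fun z hz => ?_⟩
  obtain ⟨i, -, rfl⟩ := p.eq_pow_of_pow_eq_one hz
  rw [map_pow, hg, ← zpow_natCast, ← zpow_natCast, ← zpow_mul, ← zpow_mul, mul_comm]

end cyc

/-! ### automorphisms -/

variable (X : Mdl)

theorem pA_mul {A B : M2} (hA : 0 < A.det) (hB : 0 < B.det) (h : 0 < (A * B).det) :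
    pA X (A * B) h = pA X B hB * pA X A hA := Subtype.ext (RingEquiv.ext (pb_mul X hA hB h))

theorem pA_congr {A B : M2} (e : A = B) (hA : 0 < A.det) (hB : 0 < B.det) :
    pA X A hA = pA X B hB := by subst e; rfl

theorem pS_mul (γ δ : SL(2, ℤ)) : pS X (γ * δ) = pS X δ * pS X γ :=
  Subtype.ext (RingEquiv.ext (pg_mul X γ δ))

theorem pS_pA {A B : M2} (hA : 0 < A.det) (hB : 0 < B.det) {γ g : SL(2, ℤ)}
    (e : A * (γ : M2) = (g : M2) * B) : pS X γ * pA X A hA = pA X B hB * pS X g :=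
  Subtype.ext (RingEquiv.ext (pg_pb X hA hB e))

theorem gA_mul (g h : GQ) : gA X (g * h) = gA X g * gA X h := Subtype.ext (map_mul X.gal g h)

theorem L_Gt {n : ℕ} : L (Gamma n) = L (Gt n) :=
  le_antisymm (fun x hx γ m => by
    obtain ⟨h2, h3, h4 | h4⟩ := mem_Gp.1 m
    · exact hx _ (Galx.mem_Gamma h2 h3 h4)
    · rw [← Galx.act_neg]
      exact hx _ (Galx.mem_Gamma (by simpa using h2) (by simpa using h3)
        (h4.neg_right.trans (dvd_of_eq (by simp; ring)))))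
    (L_mono (Gamma_le _ _ dvd_rfl))

theorem gal_L {n : ℕ} (h : Lv n) (g : GQ) (f : FF) : X.gal g f ∈ L (Gamma n) ↔ f ∈ L (Gamma n) := by
  have k : ∀ (g : GQ) f, f ∈ L (Gamma n) → X.gal g f ∈ L (Gamma n) := fun g f m => by
    obtain ⟨k, e⟩ := cyc_ex h.pos g
    rw [L_Gt] at m ⊢
    exact (x_shim X n h g k e).1 f m
  refine ⟨fun m => ?_, k g f⟩
  have := k g⁻¹ _ m
  rwa [map_inv, show (X.gal g)⁻¹ (X.gal g f) = f from (X.gal g).symm_apply_apply f] at this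

theorem comm_S (γ : SL(2, ℤ)) {h : GQ} (m : h ∈ Ha) : gA X h * pS X γ = pS X γ * gA X h :=
  Subtype.ext (RingEquiv.ext fun f => by
    obtain ⟨n, a, b⟩ := Galx.g5 f
    exact (x_shim X n a h 1 ((cyc_one a.pos).2 (Ha_le a.pos.ne' m))).2 γ γ (by simp [Tw]) f b)

theorem comm_D {a d : ℕ} (ha : 0 < a) (hd : 0 < d) (hA : 0 < (!![(a : ℤ), 0; 0, (d : ℤ)] : M2).det)
    (g : GQ) : gA X g * pA X _ hA = pA X _ hA * gA X g :=
  Subtype.ext (RingEquiv.ext fun f => by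
    obtain ⟨n, n0, x, e⟩ := ex_lev f
    have k := ((e.pb X n0 0 ha hd hA).gal X (Nat.mul_pos n0 hd) g)
    refine k.inj (Nat.mul_pos n0 hd) ?_
    have := (e.gal X n0 g).pb X n0 0 ha hd hA
    simp only [Int.cast_zero, zero_div, E_zero] at this ⊢
    rw [mp_ex, mp_rs]
    simp only [map_one]
    exact this)

/-! ### units -/

section un

variable {X} {Γ Γ' : Subgroup SL(2, ℤ)} {u v : FF}

theorem Lev.mono (h : Lev Γ) (le : Γ' ≤ Γ) {n : ℕ} (n0 : 0 < n) (k : Gamma n ≤ Γ') : Lev Γ' :=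
  ⟨⟨n, n0, k⟩, le.trans h.hi⟩

theorem lev_Ga {n : ℕ} (n0 : 0 < n) (h : 4 ∣ n) : Lev (Gamma n) :=
  ⟨⟨n, n0, le_rfl⟩, fun _ m => by
    obtain ⟨a, -, b, c⟩ := Gamma_mem.1 (Ga_le h m)
    exact (Gamma1_mem _ _).2 ⟨a, c, b⟩⟩

theorem Un.mono (h : Un X Γ u) (le : Γ' ≤ Γ) : Un X Γ' u := ⟨L_mono le h.mem, h.hol, h.fix⟩

theorem un_one : Un X Γ 1 :=
  ⟨one_mem _, ⟨_, _, by rw [map_one, H236.L3.inc_one], fun _ => one_ne_zero⟩, fun _ _ => map_one _⟩

theorem Un.mul (h : Un X Γ u) (k : Un X Γ v) : Un X Γ (u * v) :=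
  ⟨mul_mem h.mem k.mem, by
    obtain ⟨f, a, b, c⟩ := h.hol
    obtain ⟨g, a', b', c'⟩ := k.hol
    exact ⟨f * g, mul_mem a a', by rw [map_mul, b, b', inc_mul], fun τ => mul_ne_zero (c τ) (c' τ)⟩,
    fun g m => by rw [map_mul, h.fix g m, k.fix g m]⟩

theorem un_prod {ι : Type} {s : Finset ι} {f : ι → FF} (h : ∀ i ∈ s, Un X Γ (f i)) :
    Un X Γ (∏ i ∈ s, f i) := prod_induction f _ (fun _ _ => Un.mul) un_one h

theorem Un.pb (h : Un X Γ u) {A : M2} (hA : 0 < A.det) (k : Cj A Γ Γ')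
    (c : ∀ h ∈ Ha, gA X h * pA X A hA = pA X A hA * gA X h) : Un X Γ' (X.pb A hA u) :=
  ⟨pb_mem X hA k h.mem, by
    obtain ⟨f, a, b, e⟩ := h.hol
    exact ⟨_, _, by rw [X.pb_coe, b, pbz, pb_inc], fun τ => e _⟩, fun g m =>
    (DFunLike.congr_fun (congrArg Subtype.val (c g m)) u).trans (congrArg (X.pb A hA) (h.fix g m))⟩

theorem Reps.perm {ι : Type} [Finite ι] {r : ι → SL(2, ℤ)} (R : Reps Γ Γ' r) {γ : SL(2, ℤ)}
    (m : γ ∈ Γ) : ∃ π : ι → ι, Function.Bijective π ∧ ∀ i, r i * γ * (r (π i))⁻¹ ∈ Γ' := by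
  choose π e using fun i => R.cov _ (mul_mem (R.mem i) m)
  refine ⟨π, Finite.injective_iff_bijective.1 fun i j k => R.inj i j ?_, e⟩
  have := mul_mem (e i) (inv_mem (e j))
  rw [k] at this
  simpa [mul_assoc] using this

theorem Un.nrm {ι : Type} [Fintype ι] {r : ι → SL(2, ℤ)} (R : Reps Γ Γ' r) (h : Un X Γ' u) :
    Un X Γ (∏ i, X.pg (r i) u) := by
  have := un_prod (s := univ) fun i _ => h.pb (Γ' := ⊥) (SL_pos (r i))
    (cj_SL fun _ m => by simp [Subgroup.mem_bot.1 m]) fun _ => comm_S X _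
  refine ⟨(mem_L' X).2 fun γ m => ?_, this.hol, this.fix⟩
  obtain ⟨π, a, b⟩ := Reps.perm R m
  rw [map_prod]
  exact Fintype.prod_bijective π a _ _ fun i => by rw [← pg_mul, pg_congr X h.mem (b i)]

end un

/-! ### Siegel units with integral vectors -/

/-- the unit attached to `w / n` -/
def gs (c n : ℕ) (w : Fin 2 → ℤ) : FF := sF c (vL n w)

section gs

variable {c n p : ℕ} {w w' : Fin 2 → ℤ}

theorem nz_iff (n0 : 0 < n) : Nz c (vL n w) ↔ ¬ ∀ i, (n : ℤ) ∣ c * w i := by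
  have : (n : ℚ) ≠ 0 := Nat.cast_ne_zero.2 n0.ne'
  refine not_congr (forall_congr' fun i => exists_congr fun k => ?_)
  rw [vL, ← mul_div_assoc, div_eq_iff this, mul_comm (k : ℚ)]
  norm_cast

theorem Nz.up (n0 : 0 < n) (p0 : 0 < p) (h : Nz c (vL n w)) (k : Cv n w' w) : Nz c (vL (n * p) w') := by
  rw [nz_iff (by positivity)] at h ⊢
  refine fun a => h fun i => ?_
  have := ((Int.natCast_dvd_natCast.2 (dvd_mul_right n p)).trans (a i)).sub ((k i).mul_left c)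
  rwa [mul_sub, sub_sub_cancel] at this

theorem Nz.cv (n0 : 0 < n) (h : Nz c (vL n w)) (k : Cv n w' w) : Nz c (vL n w') := by
  simpa using Nz.up n0 one_pos h k

theorem vL_cv (n0 : 0 < n) (h : Cv n w w') (i : Fin 2) : ∃ k : ℤ, vL n w i = vL n w' i + k := by
  have : (n : ℚ) ≠ 0 := Nat.cast_ne_zero.2 n0.ne'
  obtain ⟨k, e⟩ := h i
  exact ⟨k, by rw [vL, vL, sub_eq_iff_eq_add'.1 e]; push_cast; field_simp⟩

theorem vL_int (n0 : 0 < n) (w : Fin 2 → ℤ) (i : Fin 2) : ∃ k : ℤ, n * vL n w i = k :=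
  ⟨w i, mul_div_cancel₀ _ (Nat.cast_ne_zero.2 n0.ne')⟩

theorem vg_vL (w : Fin 2 → ℤ) (A : M2) : vg (vL n w) A = vL n (w ᵥ* A) := funext fun j => by
  rw [vg_apply, vL, vL, vL, vm]
  push_cast
  ring

theorem Nz.vm (h : Nz c (vL n w)) (γ : SL(2, ℤ)) : Nz c (vL n (w ᵥ* γ)) := vg_vL w γ ▸ h.vg γ

theorem vL_up (p0 : 0 < p) (w : Fin 2 → ℤ) : vL (n * p) (fun i => p * w i) = vL n w := funext fun i => by
  have : (p : ℚ) ≠ 0 := Nat.cast_ne_zero.2 p0.ne'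
  rw [vL, vL, Nat.cast_mul, Int.cast_mul, Int.cast_natCast, mul_comm (n : ℚ), mul_div_mul_left _ _ this]

variable (hc : c ^ 2 % 24 = 1) (n0 : 0 < n)
include hc n0

theorem gs_cv (h : Cv n w w') : gs c n w = gs c n w' := sF_congr hc (vL_cv n0 h)

omit n0 in
theorem gs_pg (h : Nz c (vL n w)) (γ : SL(2, ℤ)) : X.pg γ (gs c n w) = gs c n (w ᵥ* γ) := by
  rw [gs, sF_pg hc X h, vg_vL, gs]

theorem gs_gal (h : Nz c (vL n w)) {g : GQ} {k : ℤ} (y : Cyc n g k) :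
    X.gal g (gs c n w) = gs c n ![w 0, k * w 1] := by
  have e : vL n w = ![vL n w 0, vL n w 1] := by ext i; fin_cases i <;> rfl
  rw [gs, e, sF_gal hc X (e ▸ h) n0 (e ▸ vL_int n0 w) y, gs]
  congr 1
  ext i
  fin_cases i <;> simp [vL, mul_div_assoc]

theorem gs_un (h : Nz c (vL n w)) {Γ : Subgroup SL(2, ℤ)} (le : Γ ≤ St n w) : Un X Γ (gs c n w) :=
  ⟨(mem_L' X).2 fun γ m => by rw [gs_pg X hc h, gs_cv hc n0 (le m)],
    ⟨_, _, cv_sF hc h, sg_ne h⟩, fun g m => by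
      rw [gs_gal X hc n0 h ((cyc_one n0).2 (Ha_le n0.ne' m)), one_mul]
      congr 1
      ext i
      fin_cases i <;> rfl⟩

variable [NeZero p]

omit hc in
theorem vL_Wv (w : Fin 2 → ℤ) (e : Fin 2 → ZMod p) :
    vL (n * p) (Wv n w e) = ![vL (n * p) w 0 + (e 0).val / p, vL (n * p) w 1 + (e 1).val / p] := by
  have : (n : ℚ) ≠ 0 := Nat.cast_ne_zero.2 n0.ne'
  have : (p : ℚ) ≠ 0 := Nat.cast_ne_zero.2 (NeZero.ne p)
  ext i
  fin_cases i <;> simp [vL, Wv] <;> field_simp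

omit hc in
theorem mul_vL (w : Fin 2 → ℤ) (i : Fin 2) : p * vL (n * p) w i = vL n w i := by
  have : (n : ℚ) ≠ 0 := Nat.cast_ne_zero.2 n0.ne'
  have : (p : ℚ) ≠ 0 := Nat.cast_ne_zero.2 (NeZero.ne p)
  simp only [vL, Nat.cast_mul]
  field_simp

/-- the distribution relation -/
theorem gs_dist (k : p.Coprime c) (h : Nz c (vL n w)) :
    ∏ e : Fin 2 → ZMod p, gs c (n * p) (Wv n w e) = gs c n w := by
  have e : vL n w = ![p * vL (n * p) w 0, p * vL (n * p) w 1] := by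
    ext i
    fin_cases i <;> exact (mul_vL n0 w _).symm
  rw [gs, e, ← sF_dist hc (NeZero.pos p) k (e ▸ h), prod_product, ← prod_zmod,
    ← (piFinTwoEquiv fun _ => ZMod p).symm.prod_comp, Fintype.prod_prod_type]
  refine prod_congr rfl fun i _ => ?_
  rw [← prod_zmod]
  exact prod_congr rfl fun j _ => by rw [gs, vL_Wv n0]; rfl

/-- the distribution relation along a line -/
theorem gs_dist1 {x : ℤ} (k : p.Coprime c) (e0 : w 0 = p * x) (h : Nz c (vL n ![x, w 1]))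
    (hA : 0 < (!![(p : ℤ), 0; 0, 1] : M2).det) :
    ∏ j : ZMod p, gs c (n * p) (Wv n w ![0, j]) = X.pb _ hA (gs c n ![x, w 1]) := by
  have : (p : ℚ) ≠ 0 := Nat.cast_ne_zero.2 (NeZero.ne p)
  have e : vL n ![x, w 1] = ![vL (n * p) w 0, p * vL (n * p) w 1] := by
    ext i
    fin_cases i
    · simp [vL, e0, mul_comm (n : ℚ), mul_div_mul_left _ _ this]
    · exact (mul_vL n0 w 1).symm
  rw [gs, e, ← sF_dist1 hc X (NeZero.pos p) k (e ▸ h), ← prod_zmod]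
  exact prod_congr rfl fun j _ => by rw [gs, vL_Wv n0]; simp

end gs

end Vale.Agent.P014T.Nr
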