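import Vale.Agent.P014T.Nr.Rul
import Vale.Agent.P014T.Uy.Ho

/-! # P014T, block NR: conjugation by `S` -/

set_option autoImplicit false
set_option linter.all false

open CongruenceSubgroup Matrix
open scoped MatrixGroups

noncomputable section

namespace Vale.Agent.P014T.Nr

open Vale.Agent.P022 P027M.M
open Ts (Pm mq_inj)
open Dr (Hm Ha)
open Uy (Df pO up up_spec iO)
open ModularGroup (S)
open Sg (Nz)

variable {a b : ℚ} {Γ : Subgroup SL(2, ℤ)} {ξ : Pm FF a b} (X : Mdl) {s t : Au} {g : GQ}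

theorem df_congr (h : Df Γ ξ) (e : ∀ f ∈ L Γ, s.1 f = t.1 f) : s • ξ = t • ξ :=
  mq_inj (iO : FF →+* Uy.Om) (((up_spec s).sm ξ).symm.trans (h.sm fun f m => by rw [up_spec s, e f m]))

theorem gal_S {N : ℕ} (n0 : 0 < N) (inv : ∀ γ ∈ Gamma0 N, pS X γ • ξ = ξ) (fx : gA X g • ξ = ξ) :
    gA X g • pS X S • ξ = pS X S • ξ := by
  obtain ⟨k, y⟩ := cyc_ex n0 g
  obtain ⟨γ, t⟩ := Uy.ex_tm (cyc_cop n0 y) S
  rw [← mul_smul, df_congr ((Uy.df_iff X).2 fun δ m => inv δ (Ga_G0 dvd_rfl m))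
    (t := pS X γ * gA X g) fun f m => Uy.gal_pg X n0 y t m, mul_smul, fx,
    ← inv_mul_cancel_right γ S, pS_mul, mul_smul, inv _ (mem_G0.2 ?_)]
  simpa [mm, ModularGroup.coe_S, vecHead, vecTail] using t.2.2.2

theorem gs_S {c n D : ℕ} {w : Fin 2 → ℤ} (hc : c ^ 2 % 24 = 1) (p : 0 < n * D)
    (z : Nz c (vL (n * D) w)) (d : (D : ℤ) ∣ w 0) (m : g ∈ Hm n) :
    X.gal g (X.pg S (gs c (n * D) w)) = X.pg S (gs c (n * D) w) := by
  obtain ⟨k, y⟩ := cyc_ex p g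
  have n0 := Nat.pos_of_mul_pos_right p
  have := mul_dvd_mul ((cyc_congr n0 (cyc_dvd p (dvd_mul_right n D) y)).1 ((cyc_one n0).2 m)) d
  rw [gs_pg X hc z, gs_gal X hc p (Nz.vm z S) y]
  refine gs_cv hc p (Fin.forall_fin_two.2 ⟨by simp, ?_⟩)
  simpa [vm, ModularGroup.coe_S, sub_mul, neg_add_eq_sub, dvd_sub_comm] using this

end Vale.Agent.P014T.Nr
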