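import Vale.Agent.P014T.Nr.Smo
import Vale.Agent.P014T.Pm.Rel

/-! # P014T, block NR: the relation between the unit system and the primitive system (helper48) -/

set_option autoImplicit false
set_option linter.all false

open CongruenceSubgroup Finset
open scoped MatrixGroups Matrix

noncomputable section

namespace Vale.Agent.P014T.Nr

open Vale.Agent.P022 H231.L3 P027M.M P027M.M.Dp
open Dr (Hm Ha Tv Ha_le Hm_le Hm_open Zn Co Ch Cd aa cor)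
open Pm (Gz op op_of op_int ev ev_of ev_eu eu ZP Uk s_comm fix_z primL)

/-- the smoothing element -/
def sz (c : ℕ) (g : GQ) : Gz := (c : Gz) ^ 2 - c * MonoidAlgebra.of ℤ GQ g

section

variable {X : Mdl} {Ξ C : Type} [AddCommGroup Ξ] [DistribMulAction Au Ξ] [AddCommGroup C] {m : ℕ}
  {Cu : AddSubgroup Ξ} {σ : GQ →* AddMonoid.End C} {Z : Subgroup SL(2, ℤ) → Ξ → FF → FF → C}
  {ξ : Ξ} {N c e n : ℕ} {A : M2} {g h : GQ} {x : C}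

theorem op_sz (c : ℕ) (g : GQ) (x : C) : op σ (sz c g) x = c ^ 2 • x - c • σ g x := by
  rw [sz, map_sub, map_mul, map_pow, op_of, map_natCast, ← Nat.cast_pow]
  exact congrArg₂ _ (AddMonoid.End.natCast_apply _ _) (AddMonoid.End.natCast_apply _ _)

theorem op_mul (a b : Gz) (x : C) : op σ (a * b) x = op σ a (op σ b x) := by rw [map_mul]; rfl

theorem sz_comm (f : ∀ h ∈ Ha, σ h x = x) (s : GQ) : σ s (op σ (sz c g) x) = op σ (sz c g) (σ s x) := by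
  rw [op_sz, op_sz, map_sub, map_nsmul, map_nsmul, s_comm f]

theorem sz_fix (f : ∀ h ∈ Ha, σ h x = x) : ∀ h ∈ Ha, σ h (op σ (sz c g) x) = op σ (sz c g) x :=
  fun h a => by rw [sz_comm f, f h a]

theorem sz_sum (f : ∀ h ∈ Ha, σ h x = x) (T : Finset GQ) :
    op σ (sz c g ^ 2) (∑ s ∈ T, σ s x) = ∑ s ∈ T, σ s (op σ (sz c g ^ 2) x) := by
  simp only [map_sum (op σ _), pow_two, op_mul, sz_comm (sz_fix f), sz_comm f]

/-- both smoothing numbers -/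
theorem smo (R : Ru X m Cu σ Z) (x : Cx X m Cu ξ N c c n A) (s : Sw N A) (he : e ^ 2 % 24 = 1)
    (cN : c ≡ 1 [MOD N]) (eN : e ≡ 1 [MOD N]) (yc : Cyc n g c) (ye : Cyc n h e) :
    Cx X m Cu ξ N e e n A ∧
      op σ (sz e h ^ 2) (ZL Z ξ c c n A) = op σ (sz c g ^ 2) (ZL Z ξ e e n A) := by
  obtain ⟨x1, e1⟩ := smo1 R x s he cN eN yc ye
  obtain ⟨x2, e2⟩ := smo2 R x1 s he cN eN yc ye
  have f := fun k a => fix_z R (det R) x1 (h := k) (Ha_le x.pos.ne' a)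
  rw [← op_sz, ← op_sz] at e1 e2
  refine ⟨x2, ?_⟩
  rw [pow_two, pow_two, op_mul, op_mul, e1, ← e2, op_sz e, op_sz e, sz_comm f, map_sub, map_nsmul,
    map_nsmul]

end

variable {X : Mdl} {Ξ : Type} [AddCommGroup Ξ] [DistribMulAction Au Ξ] {m k : ℕ}
  {Cu : AddSubgroup Ξ} {ρ : GQ →* P004F.M2 (Zn k)} {Z : Subgroup SL(2, ℤ) → Ξ → FF → FF → Cl ρ} {ξ : Ξ}
  {N c c' M M' : ℕ} {s : Finset ℕ} {a : ℕ → ℤ} {B : Type} [CommRing B] {ι : Zn k →+* B} {Ψ : GQ →* B}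
  {y y' : GQ → Fin 2 → Zn k} {g₀ : GQ}

theorem ev_sz (c : ℕ) (g : GQ) : ev Ψ (sz c g) = c ^ 2 - c * Ψ g⁻¹ := by
  rw [sz, map_sub, map_mul, map_pow, ev_of, map_natCast]

/-- **the relation** -/
theorem zrel (R : Ru X m Cu (sg ρ) Z) (γ : SL(2, ℤ)) (hM : M = M' * ∏ p ∈ s, p)
    (x : Cx X m Cu ξ N c c M γ) (y0 : Pm.Lv c' c' M' γ) (cN : c ≡ 1 [MOD N]) (cN' : c' ≡ 1 [MOD N])
    (mM : m ∣ M') (φ : ℕ → GQ) (yc : Cyc M (φ c) c) (yc' : Cyc M (φ c') c')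
    (hs : ∀ p ∈ s, p.Prime ∧ ¬ p ∣ M' ∧ p.Coprime c' ∧ Uk X ξ p (a p) ∧ ∀ j, ¬ p ∣ j → Cyc j (φ p) p)
    (cd : Cd M' Ψ) (co : Co (Hm M) ρ y) (co' : Co (Hm M) ρ y') (e : cl ρ y = ZL Z ξ c c M γ)
    (e' : cl ρ y' = ZP Z ξ c' c' M (∏ p ∈ s, p) γ) (hg : g₀ ∈ Ha) :
    Ch ⊤ (aa ρ ι Ψ)
      ((ι (ρ g₀ - 1).det ^ 2 * (∏ p ∈ s, (p - 1) * a p * p ^ 2 : ℤ) *
        (c' ^ 2 - c' * Ψ (φ c')⁻¹) ^ 2) • cor ρ ι Ψ (Hm M) y)
      ((ι (ρ g₀ - 1).det ^ 2 * (c ^ 2 - c * Ψ (φ c)⁻¹) ^ 2 * ∏ p ∈ s, (p - a p * Ψ (φ p))) •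
        cor ρ ι Ψ (Hm M) y') := by
  have M0 := x.pos.ne'
  have le : Hm M ≤ Hm M' := Hm_le ⟨_, hM⟩
  obtain ⟨T, t⟩ := ex_tv (Hm_open M0) le
  obtain ⟨x', r⟩ := smo R x (sw_sl γ) y0.hc cN cN' yc yc'
  have f := fun {c} (x : Cx X m Cu ξ N c c M γ) k a => fix_z R (det R) x (h := k) (Ha_le M0 a)
  have p := primL R (det R) (a := a) (φ := φ) s.toList s.nodup_toList (by rwa [prod_toList]) x' y0 mM
    dvd_rfl (fun p b => by
      obtain ⟨h1, h2, h3, h4, h5⟩ := hs p (mem_toList.1 b)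
      exact ⟨h1, h2, h3.mul_right h3, fun d => h1.not_dvd_one (Int.natCast_dvd_natCast.1 (by simpa using d)), h4, h5⟩) t
  rw [prod_toList, prod_map_toList] at p
  have q : ∀ u, Ch ⊤ (aa ρ ι Ψ) u u := fun u => ⟨0, by simp⟩
  have := Pm.rel (ι := ι) (e := (∏ p ∈ s, (p - 1) * a p * p ^ 2 : ℤ) * sz c' (φ c') ^ 2)
    (e' := sz c (φ c) ^ 2 * eu a φ s.toList) cd (Hm_open M0) (Hm_open M0) (Ha_le M0) (Ha_le M0) le le
    co co' t t (by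
      rw [e, e', op_mul, op_mul, op_int, ← p, map_zsmul, sz_sum (f x), r, sz_sum (f x')])
    hg (q _) (q _)
  simp only [smul_smul, map_mul, map_pow, ev_sz, ev_eu, map_intCast, prod_map_toList] at this
  convert this using 2 <;> ring

end Vale.Agent.P014T.Nr
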