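import Vale.Agent.P014T.Sg.Ff
import Vale.Agent.P014T.Dr.Cy
import Vale.Agent.P027M.M.Dp2
import Vale.Agent.P027M.M.All1
import Vale.Agent.P027M.K.TT

/-! # P014T, block NR: rules for the classes of symbols of modular units (words; helper48) -/

set_option autoImplicit false
set_option linter.all false

open UpperHalfPlane CongruenceSubgroup Matrix
open scoped MatrixGroups

noncomputable section

namespace Vale.Agent.P014T.Nr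

open Vale.Agent.P022 H218.L3 H231.L3 P027M.M P027M.M.Dp
open P027M.K (SL)
open Dr (Hm Ha Tv)
open Sg (sF Nz)

/-- semilinear automorphisms of the field of modular functions -/
abbrev Au : Type := SL Qb FF

variable (X : Mdl)

/-- `f ↦ f ∘ A` -/
def pA (A : M2) (hA : 0 < A.det) : Au :=
  ⟨(X.pb A hA).toRingEquiv, RingEquiv.refl Qb, fun a => (X.pb A hA).commutes a⟩

/-- `f ↦ f ∘ γ` -/
def pS (γ : SL(2, ℤ)) : Au := pA X γ (SL_pos γ)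

/-- the action on the coefficients -/
def gA (g : GQ) : Au := ⟨X.gal g, g.toRingEquiv, (x_galx X).2.1 g⟩

/-- admissible levels -/
structure Lev (Γ : Subgroup SL(2, ℤ)) : Prop where
  lo : ∃ n, 0 < n ∧ Gamma n ≤ Γ
  hi : Γ ≤ Gamma1 4

/-- modular units of level `Γ` which are defined over the maximal cyclotomic field -/
structure Un (Γ : Subgroup SL(2, ℤ)) (u : FF) : Prop where
  mem : u ∈ L Γ
  hol : ∃ (f : ℍ → ℂ) (hf : f ∈ Hol), cv u = inc f hf ∧ ∀ τ, f τ ≠ 0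
  fix : ∀ h ∈ Ha, X.gal h u = u

variable {Ξ C : Type} [AddCommGroup Ξ] [DistribMulAction Au Ξ] [AddCommGroup C]

/-- points of level `Γ` -/
structure Xi (Cu : AddSubgroup Ξ) (Γ : Subgroup SL(2, ℤ)) (ξ : Ξ) : Prop where
  cu : ξ ∈ Cu
  inv : ∀ γ ∈ Γ, pS X γ • ξ = ξ
  fix : ∀ h ∈ Ha, gA X h • ξ = ξ

/-- admissible data -/
structure Ok (Cu : AddSubgroup Ξ) (Γ : Subgroup SL(2, ℤ)) (ξ : Ξ) (u v : FF) : Prop where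
  lev : Lev Γ
  xi : Xi X Cu Γ ξ
  u1 : Un X Γ u
  u2 : Un X Γ v

/-- **the rules** -/
structure Ru (m : ℕ) (Cu : AddSubgroup Ξ) (σ : GQ →* AddMonoid.End C)
    (Z : Subgroup SL(2, ℤ) → Ξ → FF → FF → C) : Prop where
  cu : ∀ A hA, ∀ ξ ∈ Cu, pA X A hA • ξ ∈ Cu
  tor : ∀ Γ ξ u v, Ok X Cu Γ ξ u v → m • Z Γ ξ u v = 0
  ml : ∀ Γ ξ u u' v, Ok X Cu Γ ξ u v → Un X Γ u' → Z Γ ξ (u * u') v = Z Γ ξ u v + Z Γ ξ u' v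
  skew : ∀ Γ ξ u v, Ok X Cu Γ ξ u v → Z Γ ξ v u = -Z Γ ξ u v
  add : ∀ Γ ξ ξ' u v, Ok X Cu Γ ξ u v → Xi X Cu Γ ξ' → Z Γ (ξ + ξ') u v = Z Γ ξ u v + Z Γ ξ' u v
  res : ∀ Γ Γ' ξ u v (ι : Type) [Fintype ι] (r : ι → SL(2, ℤ)), Γ' ≤ Γ → Reps Γ Γ' r → Lev Γ →
    Un X Γ u → Un X Γ v → Ok X Cu Γ' ξ u v → Z Γ' ξ u v = Z Γ (∑ i, pS X (r i) • ξ) u v
  nrm : ∀ Γ Γ' ξ u v (ι : Type) [Fintype ι] (r : ι → SL(2, ℤ)), Γ' ≤ Γ → Reps Γ Γ' r → Lev Γ →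
    Xi X Cu Γ ξ → Un X Γ u → Ok X Cu Γ' ξ u v → Z Γ' ξ u v = Z Γ ξ u (∏ i, X.pg (r i) v)
  conj : ∀ Γ Γ' ξ u v A hA, Cj A Γ Γ' → (∀ g ∈ Γ, ∃ γ ∈ Γ', A * (γ : M2) = (g : M2) * A) →
    (∀ h ∈ Ha, gA X h * pA X A hA = pA X A hA * gA X h) → Ok X Cu Γ ξ u v → Lev Γ' →
    Z Γ' (pA X A hA • ξ) (X.pb A hA u) (X.pb A hA v) = Z Γ ξ u v
  gal : ∀ Γ Γ' ξ u v g k, Cyc m g k → (∀ f, X.gal g f ∈ L Γ' ↔ f ∈ L Γ) → Ok X Cu Γ ξ u v →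
    Ok X Cu Γ' (gA X g • ξ) (X.gal g u) (X.gal g v) →
    Z Γ' (gA X g • ξ) (X.gal g u) (X.gal g v) = k • σ g (Z Γ ξ u v)

/-- the vector `w / n` -/
def vL (n : ℕ) (w : Fin 2 → ℤ) : Fin 2 → ℚ := fun i => w i / n

/-- **the element of level `n` attached to the rows of `A / n`** -/
def ZL (Z : Subgroup SL(2, ℤ) → Ξ → FF → FF → C) (ξ : Ξ) (c d n : ℕ) (A : M2) : C :=
  Z (Gamma n) ξ (sF c (vL n (A 0))) (sF d (vL n (A 1)))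

/-- the standing hypotheses -/
structure Cx (m : ℕ) (Cu : AddSubgroup Ξ) (ξ : Ξ) (N c d n : ℕ) (A : M2) : Prop where
  hc : c ^ 2 % 24 = 1
  hd : d ^ 2 % 24 = 1
  pos : 0 < n
  four : 4 ∣ n
  md : m ∣ n
  nd : N ∣ n
  cu : ξ ∈ Cu
  inv : ∀ γ ∈ Gamma0 N, pS X γ • ξ = ξ
  fix : ∀ g, gA X g • ξ = ξ
  n0 : Nz c (vL n (A 0))
  n1 : Nz d (vL n (A 1))

/-- `T_l ξ = a ξ` -/
def Hk (ξ : Ξ) (l : ℕ) (a : ℤ) : Prop := ∀ (h : ∀ j : ℕ, 0 < (!![1, (j : ℤ); 0, (l : ℤ)] : M2).det)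
  (h' : 0 < (!![(l : ℤ), 0; 0, 1] : M2).det),
  ∑ j ∈ Finset.range l, pA X _ (h j) • ξ + pA X _ h' • ξ = a • ξ

variable (m : ℕ) (Cu : AddSubgroup Ξ) (σ : GQ →* AddMonoid.End C)
  (Z : Subgroup SL(2, ℤ) → Ξ → FF → FF → C)

/-- the action of `K₀(N)` on the right -/
def DET : Prop := ∀ ξ N c d n A, Cx X m Cu ξ N c d n A → ∀ (G A' : M2) (g : GQ) (k : ℤ), Cyc n g k →
  (N : ℤ) ∣ G 1 0 → (n : ℤ) ∣ G.det - k → (∀ i j, (n : ℤ) ∣ A' i j - (A * G) i j) →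
  ZL Z ξ c d n A' = k • σ g (ZL Z ξ c d n A)

/-- the norm relation at a prime which divides the level -/
def D2 : Prop := ∀ ξ N c d n A, Cx X m Cu ξ N c d n A → ∀ p : ℕ, p.Prime → p ∣ n → p.Coprime (c * d) →
  ¬ (p : ℤ) ∣ A.det → ∀ T, Tv (Hm n) (Hm (n * p)) T →
  ∑ t ∈ T, σ t (ZL Z ξ c d (n * p) A) = ZL Z ξ c d n A

/-- the norm relation at a new prime -/
def DL : Prop := ∀ ξ N c d n A, Cx X m Cu ξ N c d n A → ∀ (l : ℕ) (a : ℤ) (φ : GQ), l.Prime → ¬ l ∣ n →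
  l.Coprime (c * d) → ¬ (l : ℤ) ∣ A.det → Hk X ξ l a → Cyc n φ l → ∀ T, Tv (Hm n) (Hm (n * l)) T →
  l • ∑ t ∈ T, σ t (ZL Z ξ c d (n * l) A) =
    l • ZL Z ξ c d n A - a • σ φ⁻¹ (ZL Z ξ c d n A) + σ (φ⁻¹ ^ 2) (ZL Z ξ c d n A)

end Vale.Agent.P014T.Nr
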